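import Vale.Agent.P369.Fock.Bridge

/-!
P369: the entropy is uniformly approximated by the entropy of a box in terms of the energy tail,
hence continuous along entrywise limits with uniformly small tails.
-/

namespace Vale.Agent.P369.Classical

noncomputable section

open Matrix Finset Filter Vale.Agent.P369.Fock
open scoped ComplexConjugate ComplexOrder Topology

variable {n : ℕ}

theorem negMulLog_mul_le {l m : ℝ} (hl0 : 0 ≤ l) (hl1 : l ≤ 1) (hm0 : 0 ≤ m) (hm1 : m ≤ 1) :
    Real.negMulLog (l * m) ≤ Real.negMulLog l + l * (1 - m) := by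
  rw [Real.negMulLog_mul]
  have h1 : Real.negMulLog m ≤ 1 - m := by
    have := negMulLog_le_klein hm0 one_pos
    rw [Real.log_one, mul_zero, neg_zero, zero_add] at this
    exact this
  have h2 := Real.negMulLog_nonneg hl0 hl1
  have h3 := mul_le_mul_of_nonneg_left h1 hl0
  have h4 := mul_le_of_le_one_left h2 hm1
  linarith

theorem vN_submatrix_le {ι κ : Type*} [Fintype ι] [DecidableEq ι] [Fintype κ] [DecidableEq κ]
    {X : Matrix ι ι ℂ} (hX : X.PosSemidef) (htr : X.trace.re ≤ 1) {e : κ → ι}
    (he : Function.Injective e) :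
    vN (X.submatrix e e) ≤ vN X + (X.trace.re - (X.submatrix e e).trace.re) := by
  have hH := hX.isHermitian
  set U : Matrix ι ι ℂ := (hH.eigenvectorUnitary : Matrix ι ι ℂ) with hU
  set l : ι → ℝ := hH.eigenvalues
  have hl0 : ∀ i, 0 ≤ l i := hX.eigenvalues_nonneg
  have hl1 : ∀ i, l i ≤ 1 := fun i =>
    (single_le_sum (fun j _ => hl0 j) (mem_univ i)).trans
      ((trace_re_eq_sum hH).symm.le.trans htr)
  set m : ι → ℝ := fun i => ∑ k, Complex.normSq (U (e k) i) with hm
  have hm0 : ∀ i, 0 ≤ m i := fun i => sum_nonneg fun _ _ => Complex.normSq_nonneg _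
  have hm1 : ∀ i, m i ≤ 1 := by
    intro i
    have h := congrArg (fun M : Matrix ι ι ℂ => (M i i).re) (eig_star_mul hH)
    simp only [mul_apply, conjTranspose_apply, RCLike.star_def, Complex.re_sum,
      ← Complex.normSq_eq_conj_mul_self, Complex.ofReal_re, one_apply_eq, Complex.one_re] at h
    rw [← h]
    calc m i = ∑ j ∈ univ.image e, Complex.normSq (U j i) := by
          rw [sum_image fun a _ b _ hab => he hab]
      _ ≤ _ := sum_le_sum_of_subset_of_nonneg (subset_univ _)
          fun j _ _ => Complex.normSq_nonneg _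
  set V : Matrix κ ι ℂ := Matrix.of fun k i => U (e k) i * (Real.sqrt (l i) : ℂ) with hV
  have hVV : X.submatrix e e = V * Vᴴ := by
    ext k k'
    conv_lhs => rw [hH.spectral_theorem, Unitary.conjStarAlgAut_apply, star_eq_conjTranspose]
    rw [submatrix_apply, mul_apply, mul_apply]
    refine sum_congr rfl fun i _ => ?_
    rw [mul_diagonal]
    simp only [hV, conjTranspose_apply, of_apply, RCLike.star_def, Function.comp_apply, map_mul,
      Complex.conj_ofReal, ← hU]
    have : ((Real.sqrt (l i) : ℂ)) * (Real.sqrt (l i) : ℂ) = (l i : ℂ) := by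
      rw [← Complex.ofReal_mul, Real.mul_self_sqrt (hl0 i)]
    rw [show (RCLike.ofReal (hH.eigenvalues i) : ℂ) = (l i : ℂ) from rfl, ← this]
    ring
  have hcol : ∀ i, ∑ k, ‖V k i‖ ^ 2 = l i * m i := by
    intro i
    rw [hm, mul_sum]
    refine sum_congr rfl fun k _ => ?_
    rw [Complex.sq_norm, hV, of_apply, Complex.normSq_mul, Complex.normSq_ofReal,
      Real.mul_self_sqrt (hl0 i), mul_comm]
  have htrV : (V * Vᴴ).trace.re = ∑ i, l i * m i := by
    simp only [← hcol, trace, diag_apply, mul_apply, conjTranspose_apply, RCLike.star_def,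
      Complex.mul_conj, Complex.re_sum, Complex.ofReal_re, ← Complex.sq_norm]
    exact sum_comm
  rw [hVV, htrV, vN_eq_sum hH, trace_re_eq_sum hH, ← sum_sub_distrib, ← sum_add_distrib]
  refine (vN_mul_conjTranspose_le V).trans (sum_le_sum fun i _ => ?_)
  rw [hcol]
  exact (negMulLog_mul_le (hl0 i) (hl1 i) (hm0 i) (hm1 i)).trans_eq (by ring)

/-- error of the approximation by a box -/
def err (n L : ℕ) (e : ℝ) : ℝ := 2 * e + 2 ^ n / (L + 1)

variable {σ : Op n}

theorem entropy_sub_le (h : IsState σ) (L : ℕ) :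
    |entropy σ - vN (compress L σ)| ≤ err n L (tail L σ) := by
  classical
  have hP := h.toPre
  have ht := tendsto_entropy hP
  have htail := tail_nonneg hP L
  have hup : entropy σ ≤ vN (compress L σ) + err n L (tail L σ) :=
    le_of_tendsto ht ((eventually_ge_atTop L).mono fun K hK => vN_compress_le hP hK)
  have htrace : ∀ K, (compress K σ).trace.re =
      ∑ a ∈ (univ : Finset (Box n K)).image occ, (σ a a).re := fun K => by
    rw [sum_image fun a _ b _ hab => occ_injective hab]
    simp [trace, compress, Complex.re_sum]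
  have hK1 : ∀ K, (compress K σ).trace.re ≤ 1 := fun K => by
    rw [htrace, ← h.trace_one.tsum_eq]
    exact h.trace_one.summable.sum_le_tsum _ fun a _ => hP.diag_nonneg a
  have hL1 : 1 ≤ (compress L σ).trace.re + tail L σ := by
    set T : Finset (Fin n → ℕ) := (univ : Finset (Box n L)).image occ
    have hin : ∀ a, a ∈ T ↔ ∀ j, a j ≤ L := fun a => by
      constructor
      · intro ha
        obtain ⟨k, -, rfl⟩ := mem_image.1 ha
        exact occ_le k
      · intro ha
        obtain ⟨k, hk⟩ := exists_occ ha
        exact mem_image.2 ⟨k, mem_univ _, hk⟩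
    have h1 : HasSum (fun a => if ∀ j, a j ≤ L then (σ a a).re else 0)
        (∑ a ∈ T, (σ a a).re) := by
      rw [← sum_congr rfl fun a ha => if_pos ((hin a).1 ha)]
      exact hasSum_sum_of_ne_finset_zero fun a ha => if_neg fun h' => ha ((hin a).2 h')
    have hsum : Summable fun a : Fin n → ℕ =>
        if ∀ j, a j ≤ L then (0:ℝ) else ((∑ j, a j : ℕ) : ℝ) * (σ a a).re :=
      hP.energy.of_nonneg_of_le (fun a => by split; exacts [le_rfl, hP.energy_term_nonneg a])
        (fun a => by split; exacts [hP.energy_term_nonneg a, le_rfl])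
    rw [htrace, tail]
    refine hasSum_le (fun a => ?_) h.trace_one (h1.add hsum.hasSum)
    split_ifs with ha
    · simp
    · rw [zero_add]
      refine le_mul_of_one_le_left (hP.diag_nonneg a) ?_
      push Not at ha
      obtain ⟨j, hj⟩ := ha
      have := single_le_sum (f := a) (fun _ _ => Nat.zero_le _) (mem_univ j)
      exact_mod_cast le_trans (Nat.one_le_iff_ne_zero.2 (by omega)) this
  have hlow : vN (compress L σ) ≤ entropy σ + tail L σ := by
    refine le_of_tendsto_of_tendsto' tendsto_const_nhds
      ((ht.comp (tendsto_add_atTop_nat L)).add_const (tail L σ)) fun d => ?_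
    let e : Box n L → Box n (d + L) := fun k j => Fin.castLE (by omega) (k j)
    have he : Function.Injective e := fun a b hab =>
      occ_injective (funext fun j => congrArg (Fin.val ∘ fun f : Box n (d + L) => f j) hab)
    have hsub : (compress (d + L) σ).submatrix e e = compress L σ := rfl
    have := vN_submatrix_le (hP.psd (d + L)) (hK1 _) he
    rw [hsub] at this
    simp only [Function.comp_apply]
    linarith [hK1 (d + L)]
  have h2 : (0:ℝ) ≤ 2 ^ n / (L + 1) := by positivity
  rw [abs_le]
  constructor <;> unfold err at * <;> linarith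

/-- the entropy is continuous along entrywise limits with uniformly small energy tails -/
theorem tendsto_entropy_of_tendsto {σs : ℕ → Op n} (hs : ∀ m, IsState (σs m)) (h : IsState σ)
    (hlim : ∀ a b, Tendsto (fun m => σs m a b) atTop (𝓝 (σ a b)))
    {ε : ℕ → ℝ} (hε : Tendsto ε atTop (𝓝 0)) (hts : ∀ m L, tail L (σs m) ≤ ε L)
    (ht : ∀ L, tail L σ ≤ ε L) :
    Tendsto (fun m => entropy (σs m)) atTop (𝓝 (entropy σ)) := by
  rw [Metric.tendsto_nhds]
  intro δ hδ
  have herr : Tendsto (fun L => err n L (ε L)) atTop (𝓝 0) := by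
    simpa [err, div_eq_mul_inv] using (hε.const_mul 2).add
      ((tendsto_one_div_add_atTop_nhds_zero_nat (𝕜 := ℝ)).const_mul ((2:ℝ) ^ n))
  obtain ⟨L, hL⟩ := (herr.eventually_lt_const (show (0:ℝ) < δ / 3 by linarith)).exists
  have hc : Tendsto (fun m => vN (compress L (σs m))) atTop (𝓝 (vN (compress L σ))) :=
    (continuousOn_vN _ (h.psd L).isHermitian).tendsto.comp
      (tendsto_nhdsWithin_iff.2 ⟨tendsto_pi_nhds.2 fun k => tendsto_pi_nhds.2 fun k' =>
          hlim (occ k) (occ k'),
        Eventually.of_forall fun m => ((hs m).psd L).isHermitian⟩)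
  filter_upwards [Metric.tendsto_nhds.1 hc (δ / 3) (by linarith)] with m hm
  rw [Real.dist_eq] at hm ⊢
  have h1 := abs_le.1 (entropy_sub_le (hs m) L)
  have h2 := abs_le.1 (entropy_sub_le h L)
  obtain ⟨h3, h4⟩ := abs_lt.1 hm
  have h5 := hts m L
  have h6 := ht L
  unfold err at *
  rw [abs_lt]
  constructor <;> linarith

end

end Vale.Agent.P369.Classical
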