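import Vale.Agent.P369.Classical.Moments
import Vale.Agent.P369.Classical.EntropyCont

/-!
P369: from finite mixtures of coherent states to mixtures over an arbitrary probability measure with
finite energy.
-/

namespace Vale.Agent.P369.Classical

noncomputable section

open Matrix Finset Filter MeasureTheory Vale.Agent.P369.Fock
open scoped ComplexConjugate ComplexOrder Topology

variable {n : ℕ}

/-- the mixture of coherent states with weight `μ` -/
def classOp (μ : Measure (Fin n → ℂ)) : Op n := fun a b => ∫ x, coh x a * conj (coh x b) ∂μ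

theorem continuous_coh (a : Fin n → ℕ) : Continuous fun x : Fin n → ℂ => coh x a := by
  unfold coh
  fun_prop

theorem continuous_pc (a : Fin n → ℕ) : Continuous fun x : Fin n → ℂ => pc x a :=
  (continuous_coh a).norm.pow 2

theorem continuous_amt : Continuous (amt (n := n)) := by
  unfold amt
  fun_prop

theorem continuous_tb (L : ℕ) : Continuous (tb L) := by
  unfold tb
  fun_prop

theorem continuous_term (a b : Fin n → ℕ) :
    Continuous fun x : Fin n → ℂ => coh x a * conj (coh x b) :=
  (continuous_coh a).mul (Complex.continuous_conj.comp (continuous_coh b))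

theorem norm_term_le_one (x : Fin n → ℂ) (a b : Fin n → ℕ) :
    ‖coh x a * conj (coh x b)‖ ≤ 1 := by
  rw [norm_mul, Complex.norm_conj]
  exact mul_le_one₀ (norm_coh_le_one x a) (norm_nonneg _) (norm_coh_le_one x b)

variable {μ : Measure (Fin n → ℂ)} [IsProbabilityMeasure μ]

theorem integrable_term (a b : Fin n → ℕ) :
    Integrable (fun x => coh x a * conj (coh x b)) μ :=
  Integrable.of_bound (continuous_term a b).aestronglyMeasurable 1
    (Eventually.of_forall fun x => norm_term_le_one x a b)

theorem integrable_pc (a : Fin n → ℕ) : Integrable (fun x => pc x a) μ :=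
  Integrable.of_bound (continuous_pc a).aestronglyMeasurable 1
    (Eventually.of_forall fun x => by rw [Real.norm_of_nonneg (pc_nonneg x a)]; exact pc_le_one x a)

omit [IsProbabilityMeasure μ] in
theorem classOp_diag (a : Fin n → ℕ) : (classOp μ a a).re = ∫ x, pc x a ∂μ := by
  simp only [classOp, coh_mul_conj, integral_complex_ofReal, Complex.ofReal_re]

theorem psd_classOp (K : ℕ) : (compress K (classOp μ)).PosSemidef := by
  refine PosSemidef.of_dotProduct_mulVec_nonneg ?_ fun v => ?_
  · ext k l
    simp only [conjTranspose_apply, compress, of_apply, classOp, RCLike.star_def, ← integral_conj,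
      map_mul, Complex.conj_conj]
    exact integral_congr_ae (Eventually.of_forall fun x => mul_comm _ _)
  · have e : star v ⬝ᵥ (compress K (classOp μ) *ᵥ v) =
        ∫ x, ((‖∑ k, conj (v k) * coh x (occ k)‖ ^ 2 : ℝ) : ℂ) ∂μ := by
      have : ∀ x, ((‖∑ k, conj (v k) * coh x (occ k)‖ ^ 2 : ℝ) : ℂ) =
          ∑ k, ∑ l, (conj (v k) * v l) * (coh x (occ k) * conj (coh x (occ l))) := fun x => by
        rw [Complex.sq_norm, ← Complex.mul_conj, map_sum, sum_mul_sum]
        refine sum_congr rfl fun k _ => sum_congr rfl fun l _ => ?_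
        rw [map_mul, Complex.conj_conj]
        ring
      simp only [this]
      rw [integral_finsetSum _ fun k _ => integrable_finsetSum _ fun l _ =>
        (integrable_term _ _).const_mul _]
      simp only [dotProduct, mulVec, mul_sum, Pi.star_apply, RCLike.star_def]
      refine sum_congr rfl fun k _ => ?_
      rw [integral_finsetSum _ fun l _ => (integrable_term _ _).const_mul _]
      refine sum_congr rfl fun l _ => ?_
      rw [integral_const_mul]
      simp only [compress, of_apply, classOp]
      ring
    rw [e, integral_complex_ofReal]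
    exact Complex.zero_le_real.2 (integral_nonneg fun x => sq_nonneg _)

theorem hasSum_diag_classOp : HasSum (fun a => (classOp μ a a).re) 1 := by
  simp only [classOp_diag]
  have hs : Summable fun a : Fin n → ℕ => ∫ x, ‖pc x a‖ ∂μ := by
    refine summable_of_sum_le (c := 1) (fun a => integral_nonneg fun x => norm_nonneg _) fun F => ?_
    simp only [Real.norm_of_nonneg (pc_nonneg _ _)]
    rw [← integral_finsetSum _ fun a _ => integrable_pc a]
    calc ∫ x, ∑ a ∈ F, pc x a ∂μ ≤ ∫ _x, (1:ℝ) ∂μ :=
          integral_mono (integrable_finsetSum _ fun a _ => integrable_pc a) (integrable_const 1)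
            fun x => sum_le_hasSum F (fun a _ => pc_nonneg x a) (hasSum_pc x)
      _ = 1 := by simp
  have := hasSum_integral_of_summable_integral_norm (fun a => integrable_pc (μ := μ) a) hs
  simpa [(hasSum_pc _).tsum_eq] using this

theorem sum_tail_classOp_le {g : (Fin n → ℂ) → ℝ} (hg : Integrable g μ) (L : ℕ)
    (hle : ∀ x, tb L (amt x) ≤ g x) (F : Finset (Fin n → ℕ)) :
    ∑ a ∈ F, (if ∀ j, a j ≤ L then 0 else ((∑ j, a j : ℕ) : ℝ)) * (classOp μ a a).re ≤
      ∫ x, g x ∂μ := by
  simp only [classOp_diag, ← integral_const_mul]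
  rw [← integral_finsetSum _ fun a _ => (integrable_pc a).const_mul _]
  exact integral_mono (integrable_finsetSum _ fun a _ => (integrable_pc a).const_mul _) hg
    fun x => (sum_tail_le x L F).trans (hle x)

theorem isState_classOp (hE : Integrable (fun x => amt x) μ) : IsState (classOp μ) := by
  have hd : ∀ a, 0 ≤ (classOp μ a a).re := fun a => by
    rw [classOp_diag]; exact integral_nonneg fun x => pc_nonneg x a
  refine { psd := psd_classOp, energy := ?_, trace_one := hasSum_diag_classOp }
  refine summable_of_sum_le (c := ∫ x, amt x ∂μ)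
    (fun a => mul_nonneg (Nat.cast_nonneg _) (hd a)) fun F => ?_
  simp only [classOp_diag, ← integral_const_mul]
  rw [← integral_finsetSum _ fun a _ => (integrable_pc a).const_mul _]
  exact integral_mono (integrable_finsetSum _ fun a _ => (integrable_pc a).const_mul _) hE
    fun x => sum_le_hasSum F (fun a _ => mul_nonneg (Nat.cast_nonneg _) (pc_nonneg x a))
      (hasSum_deg x)

theorem tail_classOp_le {g : (Fin n → ℂ) → ℝ} (hg : Integrable g μ) (L : ℕ)
    (hle : ∀ x, tb L (amt x) ≤ g x) : tail L (classOp μ) ≤ ∫ x, g x ∂μ := by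
  unfold tail
  refine Real.tsum_le_of_sum_le (fun a => ?_) fun F => ?_
  · split
    · exact le_rfl
    · rw [classOp_diag]
      exact mul_nonneg (Nat.cast_nonneg _) (integral_nonneg fun x => pc_nonneg x a)
  · refine le_trans (le_of_eq (sum_congr rfl fun a _ => ?_)) (sum_tail_classOp_le hg L hle F)
    split <;> simp

theorem attInf_classOp {η : ℝ} (h0 : 0 ≤ η) (h1 : η ≤ 1) :
    attInf η (classOp μ) = classOp (μ.map (Real.sqrt η • ·)) := by
  funext a b
  have hc : Continuous fun x : Fin n → ℂ => Real.sqrt η • x := continuous_const_smul _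
  rw [classOp, integral_map hc.measurable.aemeasurable (continuous_term a b).aestronglyMeasurable]
  set r : ℝ := Real.sqrt (1 - η)
  set F : (Fin n → ℕ) → (Fin n → ℂ) → ℂ := fun m x =>
    coh (Real.sqrt η • x) a * conj (coh (Real.sqrt η • x) b) * (pc (r • x) m : ℂ)
  have hterm : ∀ m x, ((kcoef η a m * kcoef η b m : ℝ) : ℂ) *
      (coh x (a + m) * conj (coh x (b + m))) = F m x := fun m x => by
    have ea := kcoef_mul_coh_smul h0 h1 x a m
    have eb := congrArg conj (kcoef_mul_coh_smul h0 h1 x b m)
    rw [map_mul, Complex.conj_ofReal, map_mul] at eb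
    simp only [F, ← coh_mul_conj, r]
    push_cast
    calc _ = ((kcoef η a m : ℂ) * coh x (a + m)) * ((kcoef η b m : ℂ) * conj (coh x (b + m))) := by
          ring
      _ = _ := by rw [ea, eb]; ring
  have hFi : ∀ m, Integrable (F m) μ := fun m =>
    ((integrable_term (a + m) (b + m)).const_mul _).congr (Eventually.of_forall (hterm m))
  have hpi : ∀ m, Integrable (fun x : Fin n → ℂ => pc (r • x) m) μ := fun m =>
    Integrable.of_bound ((continuous_pc m).comp (continuous_id.const_smul r)).aestronglyMeasurable 1
      (Eventually.of_forall fun x => by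
        rw [Real.norm_of_nonneg (pc_nonneg _ _)]; exact pc_le_one _ _)
  have hs : Summable fun m => ∫ x, ‖F m x‖ ∂μ := by
    refine summable_of_sum_le (c := 1) (fun m => integral_nonneg fun x => norm_nonneg _) fun T => ?_
    rw [← integral_finsetSum _ fun m _ => (hFi m).norm]
    calc ∫ x, ∑ m ∈ T, ‖F m x‖ ∂μ ≤ ∫ _x, (1:ℝ) ∂μ := by
          refine integral_mono (integrable_finsetSum _ fun m _ => (hFi m).norm)
            (integrable_const 1) fun x => ?_
          refine le_trans (sum_le_sum fun m _ => ?_)
            (sum_le_hasSum T (fun m _ => pc_nonneg _ m) (hasSum_pc (r • x)))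
          rw [norm_mul, Complex.norm_real, Real.norm_of_nonneg (pc_nonneg _ _)]
          exact mul_le_of_le_one_left (pc_nonneg _ _) (norm_term_le_one _ a b)
      _ = 1 := by simp
  have key := (hasSum_integral_of_summable_integral_norm hFi hs).tsum_eq
  have hx : ∀ x, ∑' m, F m x = coh (Real.sqrt η • x) a * conj (coh (Real.sqrt η • x) b) := fun x => by
    simp only [F]
    rw [tsum_mul_left, ← Complex.ofReal_tsum, (hasSum_pc (r • x)).tsum_eq, Complex.ofReal_one,
      mul_one]
  simp only [hx] at key
  rw [← key, attInf]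
  refine tsum_congr fun m => ?_
  rw [classOp, ← integral_const_mul]
  exact integral_congr_ae (Eventually.of_forall (hterm m))

theorem amt_smul_le {η : ℝ} (h0 : 0 ≤ η) (h1 : η ≤ 1) (x : Fin n → ℂ) :
    amt (Real.sqrt η • x) ≤ amt x :=
  sum_le_sum fun i _ => by
    rw [Pi.smul_apply, norm_smul, Real.norm_of_nonneg (Real.sqrt_nonneg _), mul_pow, Real.sq_sqrt h0]
    exact mul_le_of_le_one_left (sq_nonneg _) h1

theorem sq_norm_le_amt (x : Fin n → ℂ) : ‖x‖ ^ 2 ≤ amt x := by
  have h : ‖x‖ ≤ Real.sqrt (amt x) := (pi_norm_le_iff_of_nonneg (Real.sqrt_nonneg _)).2 fun i =>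
    Real.le_sqrt_of_sq_le (single_le_sum (f := fun j => ‖x j‖ ^ 2) (fun j _ => sq_nonneg _) (mem_univ i))
  calc ‖x‖ ^ 2 ≤ Real.sqrt (amt x) ^ 2 := pow_le_pow_left₀ (norm_nonneg _) h 2
    _ = amt x := Real.sq_sqrt (amt_nonneg x)

/-- from finite mixtures of coherent states to all classical states of finite energy -/
theorem classical_transfer (hE : Integrable (fun x => amt x) μ) {η : ℝ} {F : ℝ → ℝ}
    (hF : Continuous F) (h0 : 0 ≤ η) (h1 : η ≤ 1)
    (hfin : ∀ (m : ℕ) (w : Fin m → ℝ) (α : Fin m → Fin n → ℂ), (∀ s, 0 ≤ w s) → ∑ s, w s = 1 →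
      F (entropy (mixOp w α)) ≤ entropy (mixOp w (Real.sqrt η • α))) :
    F (entropy (classOp μ)) ≤ entropy (attInf η (classOp μ)) := by
  classical
  rw [attInf_classOp h0 h1]
  set S : (Fin n → ℂ) → (Fin n → ℂ) := fun x => Real.sqrt η • x with hS
  have hSc : Continuous S := continuous_const_smul _
  set f : ℕ → SimpleFunc (Fin n → ℂ) (Fin n → ℂ) := fun m =>
    SimpleFunc.approxOn id measurable_id Set.univ 0 (Set.mem_univ _) m
  have hfl : ∀ x, Tendsto (fun m => f m x) atTop (𝓝 x) := fun x =>
    SimpleFunc.tendsto_approxOn measurable_id (Set.mem_univ _) (by simp)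
  have hfn : ∀ m x, amt (f m x) ≤ (4 * n + 1) * amt x := fun m x => by
    have h2 : ‖f m x‖ ≤ ‖x‖ + ‖x‖ :=
      SimpleFunc.norm_approxOn_zero_le measurable_id (Set.mem_univ _) x m
    have h3 : amt (f m x) ≤ n * (‖x‖ + ‖x‖) ^ 2 := by
      have := sum_le_card_nsmul (univ : Finset (Fin n)) (fun i => ‖(f m x) i‖ ^ 2)
        ((‖x‖ + ‖x‖) ^ 2) fun i _ =>
          pow_le_pow_left₀ (norm_nonneg _) ((norm_le_pi_norm _ i).trans h2) 2
      simpa [amt] using this
    have h4 := sq_norm_le_amt x
    have h5 := amt_nonneg x
    nlinarith [mul_le_mul_of_nonneg_left h4 (Nat.cast_nonneg n : (0:ℝ) ≤ (n:ℝ))]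
  have hC : ∀ m x, amt (S (f m x)) ≤ (4 * n + 1) * amt x := fun m x =>
    (amt_smul_le h0 h1 _).trans (hfn m x)
  have hC0 : ∀ x : Fin n → ℂ, amt x ≤ (4 * n + 1) * amt x := fun x => by
    nlinarith [amt_nonneg x, mul_nonneg (Nat.cast_nonneg n : (0:ℝ) ≤ (n:ℝ)) (amt_nonneg x)]
  set g : ℕ → (Fin n → ℂ) → ℝ := fun L x => tb L ((4 * n + 1) * amt x)
  have hC' : ∀ x, 0 ≤ (4 * (n:ℝ) + 1) * amt x := fun x => (amt_nonneg x).trans (hC0 x)
  have hCi : Integrable (fun x => (4 * (n:ℝ) + 1) * amt x) μ := hE.const_mul _
  have hgm : ∀ L, AEStronglyMeasurable (g L) μ := fun L =>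
    ((continuous_tb L).comp (continuous_const.mul continuous_amt)).aestronglyMeasurable
  have hgb : ∀ L x, ‖g L x‖ ≤ (4 * (n:ℝ) + 1) * amt x := fun L x => by
    rw [Real.norm_of_nonneg (tb_nonneg L (hC' x))]
    exact min_le_left _ _
  have hgi : ∀ L, Integrable (g L) μ := fun L =>
    hCi.mono' (hgm L) (Eventually.of_forall (hgb L))
  set ε : ℕ → ℝ := fun L => ∫ x, g L x ∂μ
  have hε : Tendsto ε atTop (𝓝 0) := by
    have := tendsto_integral_of_dominated_convergence (fun x => (4 * (n:ℝ) + 1) * amt x) hgm hCi
      (fun L => Eventually.of_forall (hgb L))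
      (Eventually.of_forall fun x => tendsto_tb (hC' x))
    simpa using this
  -- the four families of maps
  have main : ∀ T : (Fin n → ℂ) → (Fin n → ℂ), Measurable T →
      (∀ x, amt (T x) ≤ (4 * n + 1) * amt x) →
      IsState (classOp (μ.map T)) ∧ ∀ L, tail L (classOp (μ.map T)) ≤ ε L := by
    intro T hT hTb
    have : IsProbabilityMeasure (μ.map T) := Measure.isProbabilityMeasure_map hT.aemeasurable
    have hi : Integrable amt (μ.map T) := by
      rw [integrable_map_measure continuous_amt.aestronglyMeasurable hT.aemeasurable]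
      refine hCi.mono' (continuous_amt.measurable.comp hT).aestronglyMeasurable
        (Eventually.of_forall fun x => ?_)
      rw [Function.comp_apply, Real.norm_of_nonneg (amt_nonneg _)]
      exact hTb x
    refine ⟨isState_classOp hi, fun L => ?_⟩
    have hcm : Continuous fun y : Fin n → ℂ => tb L (amt y) := (continuous_tb L).comp continuous_amt
    have hgL : Integrable (fun y => tb L (amt y)) (μ.map T) :=
      hi.mono' hcm.aestronglyMeasurable
        (Eventually.of_forall fun y => by
          rw [Real.norm_of_nonneg (tb_nonneg L (amt_nonneg y))]; exact min_le_left _ _)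
    refine (tail_classOp_le hgL L fun y => le_rfl).trans ?_
    rw [integral_map hT.aemeasurable hcm.aestronglyMeasurable]
    exact integral_mono ((integrable_map_measure
      hcm.aestronglyMeasurable hT.aemeasurable).1 hgL) (hgi L)
      fun x => tb_mono L (amt_nonneg _) (hTb x)
  have hlim : ∀ (T : ℕ → (Fin n → ℂ) → (Fin n → ℂ)) (U : (Fin n → ℂ) → (Fin n → ℂ)),
      (∀ m, Measurable (T m)) → Measurable U → (∀ x, Tendsto (fun m => T m x) atTop (𝓝 (U x))) →
      ∀ a b, Tendsto (fun m => classOp (μ.map (T m)) a b) atTop (𝓝 (classOp (μ.map U) a b)) := by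
    intro T U hT hU hTU a b
    simp only [classOp, integral_map (hT _).aemeasurable (continuous_term a b).aestronglyMeasurable,
      integral_map hU.aemeasurable (continuous_term a b).aestronglyMeasurable]
    exact tendsto_integral_of_dominated_convergence (fun _ => (1:ℝ))
      (fun m => ((continuous_term a b).measurable.comp (hT m)).aestronglyMeasurable)
      (integrable_const 1) (fun m => Eventually.of_forall fun x => norm_term_le_one _ a b)
      (Eventually.of_forall fun x => ((continuous_term a b).tendsto _).comp (hTU x))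
  have hid := main id measurable_id hC0
  have hsc := main S hSc.measurable fun x => (amt_smul_le h0 h1 x).trans (hC0 x)
  have hfm := fun m => main (f m) (f m).measurable (hfn m)
  have hsm := fun m => main (fun x => S (f m x)) (hSc.measurable.comp (f m).measurable) (hC m)
  have l1 := tendsto_entropy_of_tendsto (fun m => (hfm m).1) hid.1
    (hlim (fun m => f m) id (fun m => (f m).measurable) measurable_id hfl) hε
    (fun m => (hfm m).2) hid.2
  have l2 := tendsto_entropy_of_tendsto (fun m => (hsm m).1) hsc.1
    (hlim (fun m x => S (f m x)) S (fun m => hSc.measurable.comp (f m).measurable) hSc.measurable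
      fun x => (hSc.tendsto _).comp (hfl x)) hε (fun m => (hsm m).2) hsc.2
  rw [Measure.map_id] at l1
  refine le_of_tendsto_of_tendsto' ((hF.tendsto _).comp l1) l2 fun m => ?_
  -- the `m`-th term is a finite mixture
  set R : Finset (Fin n → ℂ) := (f m).range
  set al : Fin R.card → Fin n → ℂ := fun s => (R.equivFin.symm s : Fin n → ℂ)
  set w : Fin R.card → ℝ := fun s => μ.real (f m ⁻¹' {al s})
  have hsum : ∀ u : (Fin n → ℂ) → ℂ,
      ∫ x, u (f m x) ∂μ = ∑ s, (w s : ℂ) * u (al s) := by
    intro u
    have e : ∀ x, u (f m x) = ∑ y ∈ R, (f m ⁻¹' {y}).indicator (fun _ => u y) x := by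
      intro x
      rw [sum_eq_single (f m x)]
      · simp
      · intro y _ hy
        simp [Set.indicator, Ne.symm hy]
      · intro h
        exact absurd (SimpleFunc.mem_range_self (f m) x) h
    simp only [e]
    rw [integral_finsetSum _ fun y _ =>
      (integrable_const (u y)).indicator (SimpleFunc.measurableSet_preimage _ _),
      ← R.sum_coe_sort, ← R.equivFin.symm.sum_comp]
    refine sum_congr rfl fun s _ => ?_
    rw [integral_indicator_const _ (SimpleFunc.measurableSet_preimage _ _), Complex.real_smul]
  have hw : ∑ s, w s = 1 := by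
    have := hsum fun _ => 1
    simp at this
    exact_mod_cast this.symm
  have hmix : classOp (μ.map (f m)) = mixOp w al := by
    funext a b
    rw [classOp, integral_map (f m).measurable.aemeasurable
      (continuous_term a b).aestronglyMeasurable, hsum fun y => coh y a * conj (coh y b), mixOp]
    exact sum_congr rfl fun s _ => (mul_assoc _ _ _).symm
  have hmix' : classOp (μ.map fun x => S (f m x)) = mixOp w (Real.sqrt η • al) := by
    funext a b
    have hmS : Measurable fun x => S (f m x) := hSc.measurable.comp (f m).measurable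
    rw [classOp, integral_map hmS.aemeasurable
      (continuous_term a b).aestronglyMeasurable,
      hsum fun y => coh (S y) a * conj (coh (S y) b), mixOp]
    exact sum_congr rfl fun s _ => (mul_assoc _ _ _).symm
  simp only [Function.comp_apply, hmix, hmix']
  exact hfin _ w al (fun s => measureReal_nonneg) hw

end

end Vale.Agent.P369.Classical
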