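import Vale.Agent.P369.Fock.Inf

/-!
P369: classical (positive-P) states: coherent amplitudes, Gram matrices.
-/

namespace Vale.Agent.P369.Classical

noncomputable section

open Matrix Finset Vale.Agent.P369.Fock
open scoped ComplexConjugate

variable {n : ℕ} {ι : Type*} [Fintype ι] [DecidableEq ι]

/-- amplitude `⟨k|α⟩` of a coherent state -/
def coh (α : Fin n → ℂ) (k : Fin n → ℕ) : ℂ :=
  (Real.exp (-(∑ i, ‖α i‖ ^ 2) / 2) : ℂ) *
    ∏ i, α i ^ k i / (Real.sqrt ((k i).factorial : ℝ) : ℂ)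

/-- overlap `⟨α|β⟩` -/
def ovl (α β : Fin n → ℂ) : ℂ :=
  Complex.exp (∑ i, conj (α i) * β i - ((∑ i, ‖α i‖ ^ 2 + ∑ i, ‖β i‖ ^ 2 : ℝ) : ℂ) / 2)

/-- the finite mixture of coherent states -/
def mixOp (w : ι → ℝ) (α : ι → Fin n → ℂ) : Op n :=
  fun a b => ∑ s, (w s : ℂ) * coh (α s) a * conj (coh (α s) b)

/-- the matrix with the same nonzero spectrum as `mixOp` -/
def gram (w : ι → ℝ) (α : ι → Fin n → ℂ) : Matrix ι ι ℂ :=
  Matrix.of fun s t => (Real.sqrt (w s) * Real.sqrt (w t) : ℝ) * ovl (α s) (α t)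

/-- the family `Λ_i = diag (α_s i)` -/
def amp (α : ι → Fin n → ℂ) (i : Fin n) : Matrix ι ι ℂ := diagonal fun s => α s i

end

end Vale.Agent.P369.Classical
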