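import Vale.Agent.P369.Classical.Kernel

/-!
P369: coherent vectors in `ℓ²`, finite mixtures as states, their attenuation and their entropy.
-/

namespace Vale.Agent.P369.Classical

noncomputable section

open Matrix Finset Filter Vale.Agent.P369.Fock
open scoped ComplexConjugate ComplexOrder Topology

variable {n : ℕ} {ι : Type*} [Fintype ι] [DecidableEq ι]

/-- the product of two absolutely convergent series -/
theorem hasSum_mul_pair {κ : Type*} (u : ℕ → ℂ) (g : κ → ℂ) (a b : ℂ) (hu : HasSum u a)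
    (hg : HasSum g b) (h1 : Summable fun k => ‖u k‖) (h2 : Summable fun k => ‖g k‖) :
    HasSum (fun x : ℕ × κ => u x.1 * g x.2) (a * b) ∧
      Summable (fun x : ℕ × κ => ‖u x.1 * g x.2‖) :=
  ⟨hu.mul hg (summable_mul_of_summable_norm h1 h2), h1.mul_norm h2⟩

/-- a product of absolutely convergent series, one per mode -/
theorem hasSum_prod_pi : ∀ {m : ℕ} (f : Fin m → ℕ → ℂ) (s : Fin m → ℂ),
    (∀ i, HasSum (f i) (s i)) → (∀ i, Summable fun k => ‖f i k‖) →
      HasSum (fun k : Fin m → ℕ => ∏ i, f i (k i)) (∏ i, s i) ∧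
        Summable (fun k : Fin m → ℕ => ‖∏ i, f i (k i)‖) := by
  intro m
  induction m with
  | zero =>
    intro f s _ _
    refine ⟨?_, (hasSum_fintype _).summable⟩
    simp
  | succ m ih =>
    intro f s hs hn
    obtain ⟨h1, h2⟩ := ih (fun i => f i.succ) (fun i => s i.succ) (fun i => hs _) fun i => hn _
    obtain ⟨hp, hpn⟩ := hasSum_mul_pair (f 0) (fun k : Fin m → ℕ => ∏ i : Fin m, f i.succ (k i))
      (s 0) (∏ i : Fin m, s i.succ) (hs 0) h1 (hn 0) h2
    refine ⟨?_, ?_⟩
    · rw [← (Fin.consEquiv fun _ => ℕ).hasSum_iff, Fin.prod_univ_succ]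
      refine hp.congr_fun fun x => ?_
      simp [Fin.prod_univ_succ]
    · rw [← (Fin.consEquiv fun _ => ℕ).summable_iff]
      refine hpn.congr fun x => ?_
      simp [Fin.prod_univ_succ]

theorem summable_norm_expTerm (z : ℂ) :
    Summable fun k : ℕ => ‖z ^ k / (k.factorial : ℂ)‖ := by
  simpa [norm_div, norm_pow] using Real.summable_pow_div_factorial ‖z‖

theorem coh_pair (a b : Fin n → ℂ) (k : Fin n → ℕ) :
    conj (coh a k) * coh b k
      = ((Real.exp (-(∑ i, ‖a i‖ ^ 2) / 2) * Real.exp (-(∑ i, ‖b i‖ ^ 2) / 2) : ℝ) : ℂ)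
        * ∏ i, ((conj (a i) * b i) ^ k i / ((k i).factorial : ℂ)) := by
  simp only [coh, map_mul, Complex.conj_ofReal, map_prod, map_div₀, map_pow, Complex.ofReal_mul]
  rw [mul_mul_mul_comm, ← prod_mul_distrib]
  congr 1
  refine prod_congr rfl fun i _ => ?_
  rw [div_mul_div_comm, ← mul_pow, ← Complex.ofReal_mul, Real.mul_self_sqrt (Nat.cast_nonneg _),
    Complex.ofReal_natCast]

/-- overlaps of coherent states -/
theorem hasSum_ovl (a b : Fin n → ℂ) :
    HasSum (fun k => conj (coh a k) * coh b k) (ovl a b) := by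
  simp only [coh_pair]
  have h := (hasSum_prod_pi (fun i k => (conj (a i) * b i) ^ k / (k.factorial : ℂ))
    (fun i => Complex.exp (conj (a i) * b i)) (fun i => hasSum_cexp _)
    (fun i => summable_norm_expTerm _)).1.mul_left
      ((Real.exp (-(∑ i, ‖a i‖ ^ 2) / 2) * Real.exp (-(∑ i, ‖b i‖ ^ 2) / 2) : ℝ) : ℂ)
  refine Eq.mp (congrArg (HasSum _) ?_) h
  rw [← Complex.exp_sum, ovl, Complex.ofReal_mul, Complex.ofReal_exp, Complex.ofReal_exp,
    ← Complex.exp_add, ← Complex.exp_add]
  congr 1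
  push_cast
  ring

theorem hasSum_norm_sq_coh (a : Fin n → ℂ) : HasSum (fun k => ‖coh a k‖ ^ 2) 1 := by
  have h := Complex.hasSum_re (hasSum_ovl a a)
  rw [ovl_self, Complex.one_re] at h
  refine h.congr_fun fun k => ?_
  rw [← Complex.normSq_eq_conj_mul_self, Complex.ofReal_re, Complex.sq_norm]

/-- mean photon number of a coherent state, mode `j` -/
theorem hasSum_num_coh (a : Fin n → ℂ) (j : Fin n) :
    HasSum (fun k => (k j : ℝ) * ‖coh a k‖ ^ 2) (‖a j‖ ^ 2) := by
  classical
  set z : Fin n → ℂ := fun i => conj (a i) * a i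
  set f : Fin n → ℕ → ℂ := fun i k => (if i = j then (k : ℂ) else 1) * (z i ^ k / (k.factorial : ℂ))
    with hf
  have hk : HasSum (fun k : ℕ => (k : ℂ) * (z j ^ k / (k.factorial : ℂ)))
      (z j * Complex.exp (z j)) ∧
      Summable fun k : ℕ => ‖(k : ℂ) * (z j ^ k / (k.factorial : ℂ))‖ := by
    refine ⟨?_, ?_⟩
    · rw [← hasSum_nat_add_iff' 1]
      simp only [sum_range_one, Nat.cast_zero, zero_mul, sub_zero]
      refine ((hasSum_cexp (z j)).mul_left (z j)).congr_fun fun k => ?_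
      rw [Nat.factorial_succ, pow_succ]
      push_cast
      have : (k.factorial : ℂ) ≠ 0 := Nat.cast_ne_zero.2 k.factorial_ne_zero
      field_simp
    · rw [← summable_nat_add_iff 1]
      refine ((summable_norm_expTerm (z j)).mul_left ‖z j‖).congr fun k => ?_
      rw [← norm_mul, Nat.factorial_succ, pow_succ]
      congr 1
      push_cast
      have : (k.factorial : ℂ) ≠ 0 := Nat.cast_ne_zero.2 k.factorial_ne_zero
      field_simp
  have h := (hasSum_prod_pi f (fun i => (if i = j then z i else 1) * Complex.exp (z i))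
    (fun i => by
      by_cases hi : i = j
      · subst hi; simpa [hf] using hk.1
      · simpa [hf, hi] using hasSum_cexp (z i))
    (fun i => by
      by_cases hi : i = j
      · subst hi; simpa [hf] using hk.2
      · simpa [hf, hi] using summable_norm_expTerm (z i))).1.mul_left
      ((Real.exp (-(∑ i, ‖a i‖ ^ 2) / 2) * Real.exp (-(∑ i, ‖a i‖ ^ 2) / 2) : ℝ) : ℂ)
  have hv : ((Real.exp (-(∑ i, ‖a i‖ ^ 2) / 2) * Real.exp (-(∑ i, ‖a i‖ ^ 2) / 2) : ℝ) : ℂ)
      * ∏ i, (if i = j then z i else 1) * Complex.exp (z i) = ((‖a j‖ ^ 2 : ℝ) : ℂ) := by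
    rw [prod_mul_distrib, prod_ite_eq' univ j, if_pos (mem_univ j), ← Complex.exp_sum,
      ← Real.exp_add]
    have e : ∑ i, z i = ((∑ i, ‖a i‖ ^ 2 : ℝ) : ℂ) := by
      simp only [z, Complex.ofReal_sum, Complex.sq_norm, Complex.normSq_eq_conj_mul_self]
    rw [e, mul_left_comm, ← Complex.ofReal_exp, ← Complex.ofReal_mul, ← Real.exp_add, ← add_div,
      show (-(∑ i, ‖a i‖ ^ 2) + -(∑ i, ‖a i‖ ^ 2)) / 2 + ∑ i, ‖a i‖ ^ 2 = 0 by ring, Real.exp_zero,
      Complex.ofReal_one, mul_one, Complex.sq_norm, Complex.normSq_eq_conj_mul_self]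
  rw [hv] at h
  refine (Complex.hasSum_re h).congr_fun fun k => ?_
  have e : ((Real.exp (-(∑ i, ‖a i‖ ^ 2) / 2) * Real.exp (-(∑ i, ‖a i‖ ^ 2) / 2) : ℝ) : ℂ)
      * ∏ i, f i (k i) = ((k j : ℝ) * ‖coh a k‖ ^ 2 : ℝ) := by
    simp only [hf, prod_mul_distrib, prod_ite_eq' univ j, mem_univ, if_true]
    rw [Complex.ofReal_mul (k j : ℝ), Complex.sq_norm, Complex.normSq_eq_conj_mul_self, coh_pair]
    push_cast
    ring
  rw [e, Complex.ofReal_re]

theorem memℓp_coh (a : Fin n → ℂ) : Memℓp (coh a) 2 :=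
  memℓp_gen (by simpa using (hasSum_norm_sq_coh a).summable)

/-- the coherent vector -/
def cohVec (a : Fin n → ℂ) : lp (fun _ : Fin n → ℕ => ℂ) 2 := ⟨coh a, memℓp_coh a⟩

theorem inner_cohVec (a b : Fin n → ℂ) : inner ℂ (cohVec a) (cohVec b) = ovl a b := by
  refine (lp.hasSum_inner (cohVec a) (cohVec b)).unique ((hasSum_ovl a b).congr_fun fun k => ?_)
  rw [RCLike.inner_apply, mul_comm]
  rfl

variable {w : ι → ℝ} {α : ι → Fin n → ℂ}

omit [DecidableEq ι] in
theorem mixOp_diag_re (a : Fin n → ℕ) :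
    (mixOp w α a a).re = ∑ s, w s * ‖coh (α s) a‖ ^ 2 := by
  rw [mixOp, Complex.re_sum]
  refine sum_congr rfl fun s _ => ?_
  rw [mul_assoc, Complex.mul_conj, ← Complex.ofReal_mul, Complex.ofReal_re, Complex.sq_norm]

omit [DecidableEq ι] in
theorem pre_mixOp (hw : ∀ s, 0 ≤ w s) : Pre (mixOp w α) where
  psd K := by
    have e : compress K (mixOp w α)
        = (Matrix.of fun (k : Box n K) s => (Real.sqrt (w s) : ℂ) * coh (α s) (occ k))
          * (Matrix.of fun (k : Box n K) s => (Real.sqrt (w s) : ℂ) * coh (α s) (occ k))ᴴ := by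
      refine Matrix.ext fun k l => ?_
      simp only [compress, mixOp, mul_apply, conjTranspose_apply, of_apply, RCLike.star_def,
        map_mul, Complex.conj_ofReal]
      refine sum_congr rfl fun s _ => ?_
      have : (Real.sqrt (w s) : ℂ) * Real.sqrt (w s) = (w s : ℂ) := by
        rw [← Complex.ofReal_mul, Real.mul_self_sqrt (hw s)]
      linear_combination -(coh (α s) (occ k) * conj (coh (α s) (occ l))) * this
    rw [e]
    exact Matrix.posSemidef_self_mul_conjTranspose _
  energy := by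
    have h : Summable fun a : Fin n → ℕ => ∑ s, ∑ j, w s * ((a j : ℝ) * ‖coh (α s) a‖ ^ 2) :=
      (hasSum_sum fun s _ => hasSum_sum fun j _ =>
        (hasSum_num_coh (α s) j).mul_left (w s)).summable
    refine h.congr fun a => ?_
    rw [mixOp_diag_re, Nat.cast_sum, mul_sum]
    refine sum_congr rfl fun s _ => ?_
    rw [sum_mul]
    exact sum_congr rfl fun j _ => by ring

omit [DecidableEq ι] in
theorem isState_mixOp (hw : ∀ s, 0 ≤ w s) (hs : ∑ s, w s = 1) : IsState (mixOp w α) where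
  toPre := pre_mixOp hw
  trace_one := by
    have h := hasSum_sum fun s (_ : s ∈ (univ : Finset ι)) =>
      (hasSum_norm_sq_coh (α s)).mul_left (w s)
    simp only [mul_one, hs] at h
    exact h.congr_fun fun a => mixOp_diag_re a

/-- **the entropy of a finite mixture is the entropy of its Gram matrix** -/
theorem entropy_mixOp (hw : ∀ s, 0 ≤ w s) (hs : ∑ s, w s = 1) :
    entropy (mixOp w α) = vN (gram w α) := by
  classical
  have hA := gram_isHermitian w α
  obtain ⟨U, hU2, hUd⟩ : ∃ U : Matrix ι ι ℂ, U * Uᴴ = 1 ∧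
      Uᴴ * gram w α * U = diagonal fun i => (hA.eigenvalues i : ℂ) :=
    ⟨_, eig_mul_star hA, eig_conj hA⟩
  set b := hA.eigenvalues with hb
  have hb0 : ∀ i, 0 ≤ b i := (gram_posSemidef w α).eigenvalues_nonneg
  set Φ : ι → lp (fun _ : Fin n → ℕ => ℂ) 2 :=
    fun i => ∑ s, ((Real.sqrt (w s) : ℂ) * U s i) • cohVec (α s) with hΦ
  have hin : ∀ i j, inner ℂ (Φ i) (Φ j) = if i = j then (b i : ℂ) else 0 := by
    intro i j
    have hij := congrFun (congrFun hUd i) j
    rw [diagonal_apply] at hij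
    rw [← hij]
    simp only [hΦ, sum_inner, inner_sum, inner_smul_left, inner_smul_right, inner_cohVec, map_mul,
      Complex.conj_ofReal, mul_apply, conjTranspose_apply, RCLike.star_def, gram, of_apply, sum_mul]
    refine sum_congr rfl fun t _ => ?_
    rw [mul_sum]
    refine sum_congr rfl fun s _ => ?_
    push_cast
    ring
  have hΦ0 : ∀ i, b i = 0 → Φ i = 0 := fun i hi => by
    rw [← inner_self_eq_zero (𝕜 := ℂ), hin, if_pos rfl, hi, Complex.ofReal_zero]
  set P := {i // 0 < b i} with hP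
  set ψ : P → lp (fun _ : Fin n → ℕ => ℂ) 2 :=
    fun i => ((1 / Real.sqrt (b i) : ℝ) : ℂ) • Φ i with hψ
  have hsum_pos : ∀ {M : Type} [AddCommMonoid M] (F : ι → M), (∀ i, b i = 0 → F i = 0) →
      ∑ i : P, F i = ∑ i, F i := by
    intro M _ F hF
    rw [← Finset.sum_subtype (univ.filter fun i => 0 < b i) (fun i => by simp) F]
    refine sum_filter_of_ne fun i _ hi => lt_of_le_of_ne (hb0 i) fun h => hi (hF i h.symm)
  have hd : Decomp (mixOp w α) (fun i : P => b i) ψ := by
    refine ⟨fun i => hb0 i, ?_, ?_, fun x y => ?_⟩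
    · have e : ∑ i : P, b i = 1 := by
        rw [hsum_pos b fun i hi => hi, hb, ← trace_re_eq_sum hA, ← hs]
        simp only [Matrix.trace, Matrix.diag, Complex.re_sum, gram, of_apply, ovl_self, mul_one,
          Complex.ofReal_re, Real.mul_self_sqrt (hw _)]
      exact e ▸ hasSum_fintype _
    · rw [orthonormal_iff_ite]
      intro i j
      simp only [hψ, inner_smul_left, inner_smul_right, hin, Complex.conj_ofReal]
      by_cases h : i = j
      · subst h
        rw [if_pos rfl, if_pos rfl, ← mul_assoc, ← Complex.ofReal_mul, ← Complex.ofReal_mul,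
          ← Complex.ofReal_one]
        congr 1
        have := i.2
        have h0 := (Real.sqrt_pos.2 this).ne'
        field_simp
        rw [Real.sq_sqrt (hb0 i)]
      · rw [if_neg h, if_neg (fun h' => h (Subtype.ext h')), mul_zero, mul_zero]
    · refine Eq.mp (congrArg (HasSum _) ?_) (hasSum_fintype _)
      have e : ∀ i : P, (b i : ℂ) * ψ i x * conj (ψ i y) = Φ i x * conj (Φ i y) := fun i => by
        simp only [hψ, lp.coeFn_smul, Pi.smul_apply, smul_eq_mul, map_mul, Complex.conj_ofReal]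
        have h1 : ((b i : ℝ) : ℂ) * (((1 / Real.sqrt (b i) : ℝ) : ℂ) * ((1 / Real.sqrt (b i) : ℝ) : ℂ))
            = 1 := by
          rw [← Complex.ofReal_mul, ← Complex.ofReal_mul, ← Complex.ofReal_one]
          congr 1
          rw [one_div, ← mul_inv, Real.mul_self_sqrt (hb0 i), mul_inv_cancel₀ i.2.ne']
        linear_combination (Φ i x * conj (Φ i y)) * h1
      simp only [e]
      rw [hsum_pos (fun i => Φ i x * conj (Φ i y)) fun i hi => by simp [hΦ0 i hi]]
      have ev : ∀ i z, Φ i z = ∑ s, (Real.sqrt (w s) : ℂ) * U s i * coh (α s) z := fun i z => by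
        simp only [hΦ, lp.coeFn_sum, Finset.sum_apply, lp.coeFn_smul, Pi.smul_apply, smul_eq_mul]
        rfl
      simp only [ev, mixOp, map_sum, map_mul, Complex.conj_ofReal, Finset.sum_mul_sum]
      rw [Finset.sum_comm]
      refine sum_congr rfl fun s _ => ?_
      rw [Finset.sum_comm]
      have hUU : ∀ t, ∑ i, U s i * conj (U t i) = if s = t then 1 else 0 := fun t => by
        have := congrFun (congrFun hU2 s) t
        rw [one_apply] at this
        simpa [mul_apply, conjTranspose_apply] using this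
      calc ∑ t, ∑ i, (Real.sqrt (w s) : ℂ) * U s i * coh (α s) x
            * ((Real.sqrt (w t) : ℂ) * conj (U t i) * conj (coh (α t) y))
          = ∑ t, (Real.sqrt (w s) : ℂ) * (Real.sqrt (w t) : ℂ) * coh (α s) x
              * conj (coh (α t) y) * ∑ i, U s i * conj (U t i) := by
            refine sum_congr rfl fun t _ => ?_
            rw [mul_sum]
            exact sum_congr rfl fun i _ => by ring
        _ = (w s : ℂ) * coh (α s) x * conj (coh (α s) y) := by
            simp only [hUU, mul_ite, mul_one, mul_zero, sum_ite_eq, mem_univ, if_true]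
            rw [← Complex.ofReal_mul, Real.mul_self_sqrt (hw s)]
  rw [(entropy_eq_tsum (pre_mixOp hw) hd).2, tsum_fintype,
    hsum_pos (fun i => Real.negMulLog (b i)) fun i hi => by rw [hi, Real.negMulLog_zero],
    vN_eq_sum hA]

/-- attenuation scales the amplitude -/
theorem kcoef_mul_coh {η : ℝ} (h0 : 0 ≤ η) (h1 : η ≤ 1) (x : Fin n → ℂ) (a m : Fin n → ℕ) :
    (kcoef η a m : ℂ) * coh x (a + m)
      = coh ((Real.sqrt η : ℂ) • x) a * coh ((Real.sqrt (1 - η) : ℂ) • x) m := by
  have e : -(∑ i, ‖((Real.sqrt η : ℂ) • x) i‖ ^ 2) / 2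
      + -(∑ i, ‖((Real.sqrt (1 - η) : ℂ) • x) i‖ ^ 2) / 2 = -(∑ i, ‖x i‖ ^ 2) / 2 := by
    simp only [Pi.smul_apply, smul_eq_mul, norm_mul, mul_pow, Complex.norm_real,
      Real.norm_of_nonneg (Real.sqrt_nonneg _), Real.sq_sqrt h0, Real.sq_sqrt (sub_nonneg.2 h1),
      ← mul_sum]
    ring
  simp only [coh, kcoef, Complex.ofReal_prod]
  rw [mul_mul_mul_comm, ← Complex.ofReal_mul, ← Real.exp_add, e, mul_left_comm, ← prod_mul_distrib,
    ← prod_mul_distrib]
  congr 1
  refine prod_congr rfl fun i _ => ?_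
  simp only [Pi.add_apply, Pi.smul_apply, smul_eq_mul]
  have hc : ((a i + m i).choose (m i) : ℝ) * ((a i).factorial : ℝ) * ((m i).factorial : ℝ)
      = ((a i + m i).factorial : ℝ) := by
    have h := Nat.add_choose_mul_factorial_mul_factorial (a i) (m i)
    exact_mod_cast h
  have hs : Real.sqrt (((a i + m i).choose (m i) : ℝ) * η ^ a i * (1 - η) ^ m i)
      * (Real.sqrt ((a i).factorial : ℝ) * Real.sqrt ((m i).factorial : ℝ))
      = Real.sqrt η ^ a i * Real.sqrt (1 - η) ^ m i * Real.sqrt ((a i + m i).factorial : ℝ) := by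
    have h2 : 0 ≤ 1 - η := sub_nonneg.2 h1
    have p : ∀ {z : ℝ}, 0 ≤ z → ∀ k : ℕ, Real.sqrt (z ^ k) = Real.sqrt z ^ k := fun {z} hz k => by
      rw [Real.sqrt_eq_iff_eq_sq (pow_nonneg hz k) (by positivity), ← pow_mul, mul_comm, pow_mul,
        Real.sq_sqrt hz]
    rw [← p h0, ← p h2, ← Real.sqrt_mul (by positivity),
      ← Real.sqrt_mul (by positivity), ← Real.sqrt_mul (by positivity),
      ← Real.sqrt_mul (by positivity), ← hc]
    congr 1
    ring
  have hs' := congrArg (fun r : ℝ => (r : ℂ)) hs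
  push_cast at hs'
  have n1 : ((Real.sqrt ((a i).factorial : ℝ) : ℝ) : ℂ) ≠ 0 :=
    Complex.ofReal_ne_zero.2 (Real.sqrt_pos.2 (by positivity)).ne'
  have n2 : ((Real.sqrt ((m i).factorial : ℝ) : ℝ) : ℂ) ≠ 0 :=
    Complex.ofReal_ne_zero.2 (Real.sqrt_pos.2 (by positivity)).ne'
  have n3 : ((Real.sqrt ((a i + m i).factorial : ℝ) : ℝ) : ℂ) ≠ 0 :=
    Complex.ofReal_ne_zero.2 (Real.sqrt_pos.2 (by positivity)).ne'
  field_simp
  rw [mul_pow, mul_pow, pow_add]
  linear_combination (x i ^ a i * x i ^ m i) * hs'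

omit [DecidableEq ι] in
theorem attInf_mixOp {η : ℝ} (h0 : 0 ≤ η) (h1 : η ≤ 1) :
    attInf η (mixOp w α) = mixOp w fun s => (Real.sqrt η : ℂ) • α s := by
  funext a b
  set x : ι → Fin n → ℂ := fun s => (Real.sqrt η : ℂ) • α s
  have h : HasSum (fun m : Fin n → ℕ => ((kcoef η a m * kcoef η b m : ℝ) : ℂ) * mixOp w α (a + m) (b + m))
      (∑ s, (w s : ℂ) * coh (x s) a * conj (coh (x s) b)) := by
    simp only [mixOp, mul_sum]
    refine hasSum_sum fun s _ => ?_
    set y : Fin n → ℂ := (Real.sqrt (1 - η) : ℂ) • α s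
    have hy : HasSum (fun m => ((‖coh y m‖ ^ 2 : ℝ) : ℂ)) ((1 : ℝ) : ℂ) :=
      Complex.hasSum_ofReal.2 (hasSum_norm_sq_coh y)
    have h' := hy.mul_left ((w s : ℂ) * coh (x s) a * conj (coh (x s) b))
    rw [Complex.ofReal_one, mul_one] at h'
    refine h'.congr_fun fun m => ?_
    have e1 := kcoef_mul_coh h0 h1 (α s) a m
    have e2 := congrArg (starRingEnd ℂ) (kcoef_mul_coh h0 h1 (α s) b m)
    rw [map_mul, map_mul, Complex.conj_ofReal] at e2
    calc ((kcoef η a m * kcoef η b m : ℝ) : ℂ) * ((w s : ℂ) * coh (α s) (a + m) * conj (coh (α s) (b + m)))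
        = (w s : ℂ) * ((kcoef η a m : ℂ) * coh (α s) (a + m))
            * ((kcoef η b m : ℂ) * conj (coh (α s) (b + m))) := by push_cast; ring
      _ = _ := by
        rw [e1, e2, Complex.sq_norm, Complex.normSq_eq_conj_mul_self]
        ring
  exact h.tsum_eq

end

end Vale.Agent.P369.Classical
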