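import Vale.Agent.P369.Classical.Finite
import Vale.Agent.P369.Classical.Entropy
import Vale.Agent.P369.Classical.Approx

/-!
P369: assembly of the inequality for classical states with a vacuum second input.
-/

namespace Vale.Agent.P369.Classical

noncomputable section

open Matrix Finset Filter MeasureTheory
open Vale.Agent.P369.Fock Vale.Agent.P369.Dissipation Vale.Agent.P369.Ode
open scoped ComplexConjugate ComplexOrder Topology

variable {n : ℕ} {η : ℝ}

/-- the lower bound read on entropies -/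
def lowerF (n : ℕ) (η x : ℝ) : ℝ := (n : ℝ) * g (η * gInv (x / n))

theorem continuous_lowerF (n : ℕ) (η : ℝ) : Continuous (lowerF n η) :=
  continuous_const.mul (continuous_g.comp (continuous_const.mul
    (continuous_gInv.comp (continuous_id.div_const _))))

theorem entropy_nonneg_of_isState {ρ : Op n} (h : IsState ρ) : 0 ≤ entropy ρ := by
  refine ge_of_tendsto' (tendsto_entropy h.toPre) fun K => ?_
  have ht : (compress K ρ).trace.re ≤ 1 := by
    rw [← h.trace_one.tsum_eq, trace, Complex.re_sum]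
    have := h.toPre.summable_diag.sum_le_tsum ((univ : Finset (Box n K)).image occ)
      (fun x _ => h.toPre.diag_nonneg x)
    rwa [sum_image fun a _ b _ h => occ_injective h] at this
  simpa using vN_ge (h.psd K) ht le_rfl

theorem mixOp_inequality (hn : 0 < n) (h0 : 0 ≤ η) (h1 : η ≤ 1) (m : ℕ) (w : Fin m → ℝ)
    (α : Fin m → Fin n → ℂ) (hw : ∀ s, 0 ≤ w s) (hs : ∑ s, w s = 1) :
    lowerF n η (entropy (mixOp w α)) ≤
      entropy (mixOp w fun s => (Real.sqrt η : ℂ) • α s) := by
  rw [entropy_mixOp hw hs, entropy_mixOp hw hs]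
  exact gram_inequality_all α hn hw hs h0 h1

/-- from the inequality on entropies to the inequality on entropy photon numbers -/
theorem photon_number_of_le {ρ : Op n} (hn : 0 < n) (h0 : 0 ≤ η) (h1 : η ≤ 1)
    (hρ : IsState ρ) (hle : lowerF n η (entropy ρ) ≤ entropy (attInf η ρ)) :
    IsState ρ ∧ IsState (bsOutInf η ρ) ∧
      ∃ SA SC NA NC : ℝ,
        Tendsto (fun K => vN (compress K ρ)) atTop (𝓝 SA) ∧
        Tendsto (fun K => vN (compress K (bsOutInf η ρ))) atTop (𝓝 SC) ∧
        0 ≤ NA ∧ g NA = SA / n ∧ 0 ≤ NC ∧ g NC = SC / n ∧ η * NA ≤ NC := by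
  have hn' : (0:ℝ) < n := Nat.cast_pos.2 hn
  have hout : IsState (attInf η ρ) := isState_attInf hρ h0 h1
  rw [bsOutInf_eq_attInf h0 h1]
  have hx0 : 0 ≤ entropy ρ / n := div_nonneg (entropy_nonneg_of_isState hρ) hn'.le
  have hy0 : 0 ≤ entropy (attInf η ρ) / n :=
    div_nonneg (entropy_nonneg_of_isState hout) hn'.le
  refine ⟨hρ, hout, entropy ρ, entropy (attInf η ρ), gInv (entropy ρ / n),
    gInv (entropy (attInf η ρ) / n), tendsto_entropy hρ.toPre, tendsto_entropy hout.toPre,
    gInv_nonneg _, g_gInv_nonneg hx0, gInv_nonneg _, g_gInv_nonneg hy0, ?_⟩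
  have hx : 0 ≤ η * gInv (entropy ρ / n) := mul_nonneg h0 (gInv_nonneg _)
  rw [← strictMono_g.le_iff_le (Set.mem_Ici.2 hx) (Set.mem_Ici.2 (gInv_nonneg _)),
    g_gInv_nonneg hy0, le_div_iff₀ hn', mul_comm]
  exact hle

/-- **the entropy photon-number inequality for classical states and a vacuum second input** -/
theorem classical_photon_number (hn : 0 < n) (h0 : 0 ≤ η) (h1 : η ≤ 1)
    (μ : Measure (Fin n → ℂ)) [IsProbabilityMeasure μ]
    (hE : Integrable (fun x => ∑ i, ‖x i‖ ^ 2) μ) :
    IsState (classOp μ) ∧ IsState (bsOutInf η (classOp μ)) ∧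
      ∃ SA SC NA NC : ℝ,
        Tendsto (fun K => vN (compress K (classOp μ))) atTop (𝓝 SA) ∧
        Tendsto (fun K => vN (compress K (bsOutInf η (classOp μ)))) atTop (𝓝 SC) ∧
        0 ≤ NA ∧ g NA = SA / n ∧ 0 ≤ NC ∧ g NC = SC / n ∧ η * NA ≤ NC := by
  refine photon_number_of_le hn h0 h1 (isState_classOp hE) ?_
  refine classical_transfer hE (continuous_lowerF n η) h0 h1 fun m w α hw hs => ?_
  refine (mixOp_inequality hn h0 h1 m w α hw hs).trans (le_of_eq ?_)
  congr 2

end

end Vale.Agent.P369.Classical
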