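import Vale.Agent.P369.Classical.Defs
import Vale.Agent.P369.Dissip

/-!
P369: Q1 with a vacuum input for finite mixtures of coherent states, core part.
`Poincare` and `AdjPos` are two elementary kernel facts, proved in `Classical/Kernel`.
-/

namespace Vale.Agent.P369.Classical

noncomputable section

open Matrix Finset Filter Real
open Vale.Agent.P369.Fock Vale.Agent.P369.Ident Vale.Agent.P369.Pins Vale.Agent.P369.Scalar
  Vale.Agent.P369.Ode Vale.Agent.P369.Box Vale.Agent.P369.Dissipation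
open scoped ComplexConjugate ComplexOrder Topology Matrix.Norms.L2Operator

set_option linter.unusedSectionVars false

variable {n : ℕ} {ι : Type*} [Fintype ι] [DecidableEq ι]

/-- the quadratic form of the coherent overlaps -/
def qform (α : ι → Fin n → ℂ) (c d : ι → ℂ) : ℂ := ∑ s, ∑ t, conj (c s) * ovl (α s) (α t) * d t

/-- Poincaré inequality at a coherent state, restricted to the span of the family -/
def Poincare (α : ι → Fin n → ℂ) : Prop :=
  ∀ (r : ι) (c : ι → ℂ), (qform α c c).re - ‖∑ t, ovl (α r) (α t) * c t‖ ^ 2 ≤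
    ∑ i, (qform α (fun s => (α s i - α r i) * c s) (fun s => (α s i - α r i) * c s)).re

/-- `‖a_j† V c + V d‖² ≥ 0` -/
def AdjPos (α : ι → Fin n → ℂ) : Prop :=
  ∀ (j : Fin n) (c d : ι → ℂ), 0 ≤ (qform α c c).re +
    (qform α (fun s => α s j * c s) (fun s => α s j * c s)).re +
    2 * (qform α c (fun s => α s j * d s)).re + (qform α d d).re

/-! ### the Gram flow -/

/-- the amplitudes at time `t` -/
def att1 (α : ι → Fin n → ℂ) (τ : ℝ) : ι → Fin n → ℂ := fun s i => (Real.sqrt τ : ℂ) * α s i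

/-- the Gram matrix at time `t` -/
def gflow (w : ι → ℝ) (α : ι → Fin n → ℂ) (t : ℝ) : Matrix ι ι ℂ :=
  gram w (att1 α (Real.exp (-t)))

/-- the commuting normal family at time `t` -/
def fam (α : ι → Fin n → ℂ) (t : ℝ) (i : Fin n) : Matrix ι ι ℂ :=
  (amp (att1 α (Real.exp (-t))) i)ᴴ

/-- exponent of the overlaps -/
def zexp (α : ι → Fin n → ℂ) (s u : ι) : ℂ :=
  ∑ i, conj (α s i) * α u i - ((∑ i, ‖α s i‖ ^ 2 + ∑ i, ‖α u i‖ ^ 2 : ℝ) : ℂ) / 2

theorem zexp_att1 (α : ι → Fin n → ℂ) {τ : ℝ} (hτ : 0 ≤ τ) (s u : ι) :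
    zexp (att1 α τ) s u = (τ : ℂ) * zexp α s u := by
  have h : ((Real.sqrt τ : ℂ)) * (Real.sqrt τ : ℂ) = (τ : ℂ) := by
    rw [← Complex.ofReal_mul, Real.mul_self_sqrt hτ]
  have e1 : ∑ i, conj (att1 α τ s i) * att1 α τ u i = (τ : ℂ) * ∑ i, conj (α s i) * α u i := by
    rw [mul_sum]
    refine sum_congr rfl fun i _ => ?_
    rw [att1, att1, map_mul, Complex.conj_ofReal]
    linear_combination (conj (α s i) * α u i) * h
  have e2 : ∀ v, ∑ i, ‖att1 α τ v i‖ ^ 2 = τ * ∑ i, ‖α v i‖ ^ 2 := fun v => by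
    rw [mul_sum]
    refine sum_congr rfl fun i _ => ?_
    rw [att1, norm_mul, Complex.norm_real, mul_pow, Real.norm_eq_abs, sq_abs, Real.sq_sqrt hτ]
  rw [zexp, zexp, e1, e2, e2]
  push_cast
  ring

theorem gram_apply (w : ι → ℝ) (α : ι → Fin n → ℂ) (s u : ι) :
    gram w α s u = (Real.sqrt (w s) * Real.sqrt (w u) : ℝ) * Complex.exp (zexp α s u) := rfl

theorem ovl_self_idx (α : ι → Fin n → ℂ) (s : ι) : ovl (α s) (α s) = 1 := by
  rw [ovl]
  have : ∑ i, conj (α s i) * α s i = ((∑ i, ‖α s i‖ ^ 2 : ℝ) : ℂ) := by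
    push_cast
    refine sum_congr rfl fun i _ => ?_
    rw [← Complex.normSq_eq_conj_mul_self, ← Complex.sq_norm, Complex.ofReal_pow]
  rw [this, ← Complex.exp_zero]
  congr 1
  push_cast
  ring

theorem gram_diag {w : ι → ℝ} (hw : ∀ s, 0 ≤ w s) (α : ι → Fin n → ℂ) (s : ι) :
    gram w α s s = (w s : ℂ) := by
  rw [gram, of_apply, ovl_self_idx, mul_one, Real.mul_self_sqrt (hw s)]

theorem trace_gram {w : ι → ℝ} (hw : ∀ s, 0 ≤ w s) (α : ι → Fin n → ℂ) :
    (gram w α).trace = ((∑ s, w s : ℝ) : ℂ) := by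
  simp [trace, gram_diag hw]

theorem Lsch_fam (w : ι → ℝ) (α : ι → Fin n → ℂ) (t : ℝ) (X : Matrix ι ι ℂ) (s u : ι) :
    Lsch (fam α t) X s u = (Real.exp (-t) : ℂ) * zexp α s u * X s u := by
  rw [Lsch, Matrix.sum_apply]
  simp only [fam, amp, diagonal_conjTranspose, Pi.star_apply, Matrix.diagonal_mul_diagonal,
    Matrix.sub_apply, Matrix.smul_apply, Matrix.add_apply, mul_diagonal, diagonal_mul,
    smul_eq_mul, RCLike.star_def, Complex.conj_conj]
  rw [← zexp_att1 α (Real.exp_pos _).le, zexp]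
  push_cast
  simp only [sub_mul, add_div, add_mul, Finset.sum_mul, sum_sub_distrib, sum_div, mul_add,
    mul_sum, sum_add_distrib]
  have hn : ∀ z : ℂ, ((‖z‖ : ℝ) : ℂ) ^ 2 = z * conj z := fun z => by
    rw [← Complex.ofReal_pow, Complex.sq_norm, ← Complex.mul_conj]
  simp only [hn]
  congr 1
  · exact sum_congr rfl fun i _ => by ring
  · congr 1 <;> exact sum_congr rfl fun i _ => by ring

theorem hasDerivAt_gflow (w : ι → ℝ) (α : ι → Fin n → ℂ) (t : ℝ) :
    HasDerivAt (fun t => gflow w α t) (-Lsch (fam α t) (gflow w α t)) t := by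
  let L : (ι → ι → ℂ) →L[ℝ] Matrix ι ι ℂ :=
    LinearMap.toContinuousLinearMap
      { toFun := fun f => Matrix.of f, map_add' := fun _ _ => rfl, map_smul' := fun _ _ => rfl }
  have h : HasDerivAt (fun t => (fun s u => gflow w α t s u))
      (fun s u => (-Lsch (fam α t) (gflow w α t)) s u) t := by
    refine hasDerivAt_pi.2 fun s => hasDerivAt_pi.2 fun u => ?_
    have e : ∀ τ : ℝ, gflow w α τ s u = ((Real.sqrt (w s) * Real.sqrt (w u) : ℝ) : ℂ) *
        Complex.exp ((Real.exp (-τ) : ℂ) * zexp α s u) := fun τ => by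
      rw [gflow, gram_apply, zexp_att1 α (Real.exp_pos _).le]
    have hd := ((((hasDerivAt_id t).neg.exp).ofReal_comp.mul_const (zexp α s u)).cexp).const_mul
      ((Real.sqrt (w s) * Real.sqrt (w u) : ℝ) : ℂ)
    refine (hd.congr_deriv ?_).congr_of_eventuallyEq (Eventually.of_forall fun τ => e τ)
    rw [Matrix.neg_apply, Lsch_fam w, e]
    simp
    ring
  exact L.hasFDerivAt.comp_hasDerivAt t h

theorem hasDerivAt_LX (w : ι → ℝ) (α : ι → Fin n → ℂ) (t : ℝ) :
    HasDerivAt (fun t => Lsch (fam α t) (gflow w α t))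
      (-Lsch (fam α t) (gflow w α t) - Lsch (fam α t) (Lsch (fam α t) (gflow w α t))) t := by
  let L : (ι → ι → ℂ) →L[ℝ] Matrix ι ι ℂ :=
    LinearMap.toContinuousLinearMap
      { toFun := fun f => Matrix.of f, map_add' := fun _ _ => rfl, map_smul' := fun _ _ => rfl }
  have h : HasDerivAt (fun t => (fun s u => Lsch (fam α t) (gflow w α t) s u))
      (fun s u => (-Lsch (fam α t) (gflow w α t) -
        Lsch (fam α t) (Lsch (fam α t) (gflow w α t))) s u) t := by
    refine hasDerivAt_pi.2 fun s => hasDerivAt_pi.2 fun u => ?_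
    have hg : HasDerivAt (fun τ => gflow w α τ s u)
        ((-Lsch (fam α t) (gflow w α t)) s u) t :=
      hasDerivAt_pi.1 (hasDerivAt_pi.1
        ((LinearMap.toContinuousLinearMap
          ({ toFun := fun M => (fun a b => M a b), map_add' := fun _ _ => rfl,
             map_smul' := fun _ _ => rfl } : Matrix ι ι ℂ →ₗ[ℝ] (ι → ι → ℂ))).hasFDerivAt.comp_hasDerivAt
          t (hasDerivAt_gflow w α t)) s) u
    have hd := (((hasDerivAt_id t).neg.exp).ofReal_comp.mul_const (zexp α s u)).mul hg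
    refine (hd.congr_deriv ?_).congr_of_eventuallyEq (Eventually.of_forall fun τ => ?_)
    · simp only [Matrix.sub_apply, Matrix.neg_apply, Lsch_fam w]
      simp
      ring
    · simp only [Pi.mul_apply, Lsch_fam w]
      rfl
  exact L.hasFDerivAt.comp_hasDerivAt t h

/-- the dissipation -/
def gdiss (w : ι → ℝ) (α : ι → Fin n → ℂ) (t : ℝ) : ℝ :=
  -(Lsch (fam α t) (gflow w α t) * CFC.log (gflow w α t)).trace.re

theorem low_fam (α : ι → Fin n → ℂ) (t : ℝ) : Low 0 (fam α t) := by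
  refine ⟨fun i j => ?_, fun j => ?_⟩
  · simp only [fam, amp, diagonal_conjTranspose, diagonal_mul_diagonal, mul_comm]
  · rw [Ladj, Complex.ofReal_zero, zero_smul, neg_zero]
    refine sum_eq_zero fun i _ => ?_
    simp only [fam, amp, diagonal_conjTranspose, diagonal_mul_diagonal]
    ext s u
    simp only [Matrix.sub_apply, Matrix.smul_apply, Matrix.add_apply, Matrix.zero_apply,
      diagonal_apply, Pi.star_apply, star_star]
    split_ifs with h
    · simp only [smul_eq_mul]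
      ring
    · simp

/-! ### the two inequalities in the eigenbasis -/

theorem qform_scaled {w : ι → ℝ} (hw : ∀ s, 0 ≤ w s) (β : ι → Fin n → ℂ) (c d : ι → ℂ) :
    qform β (fun s => (Real.sqrt (w s) : ℂ) * c s) (fun s => (Real.sqrt (w s) : ℂ) * d s) =
      star c ⬝ᵥ (gram w β *ᵥ d) := by
  simp only [qform, dotProduct, mulVec, mul_sum, Pi.star_apply, RCLike.star_def, gram, of_apply,
    map_mul, Complex.conj_ofReal]
  refine sum_congr rfl fun s _ => sum_congr rfl fun u _ => ?_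
  push_cast
  ring

theorem dot_eigen {X V : Matrix ι ι ℂ} {p : ι → ℝ} (hX : X = V * dg p * Vᴴ) (c d : ι → ℂ) :
    star c ⬝ᵥ (X *ᵥ d) = ∑ b, (p b : ℂ) * (conj ((Vᴴ *ᵥ c) b) * (Vᴴ *ᵥ d) b) := by
  rw [hX, ← mulVec_mulVec, ← mulVec_mulVec, dotProduct_mulVec, ← conjTranspose_conjTranspose V,
    ← star_mulVec, conjTranspose_conjTranspose, dotProduct]
  refine sum_congr rfl fun b _ => ?_
  rw [dg, mulVec_diagonal, Pi.star_apply, RCLike.star_def]
  ring

/-- classical states satisfy the mirrored key inequality, any test matrix -/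
theorem classical_key {w : ι → ℝ} {β : ι → Fin n → ℂ} (hw : ∀ s, 0 < w s) (hP : Poincare β)
    {V : Matrix ι ι ℂ} {p : ι → ℝ} (h1 : Vᴴ * V = 1) (h2 : V * Vᴴ = 1) (hp : ∀ k, 0 < p k)
    (hX : gram w β = V * dg p * Vᴴ) (Y : Matrix ι ι ℂ) :
    ∑ k, ∑ l, ‖Y k l‖ ^ 2 * p k ≤
      ∑ i, wsq p (Vᴴ * (amp β i)ᴴ * V * Yᴴ - Yᴴ * (Vᴴ * (amp β i)ᴴ * V))
        + ∑ k, ∑ l, ‖Y k l‖ ^ 2 * (p k ^ 2 / p l) := by
  set Y0 := V * Y * Vᴴ with hY0
  have hw0 : ∀ s, 0 ≤ w s := fun s => (hw s).le
  have hquad : ∀ M : Matrix ι ι ℂ, ∑ s, (star (fun u => M u s) ⬝ᵥ (gram w β *ᵥ fun u => M u s)).re =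
      ∑ b, ∑ s, p b * ‖(Vᴴ * M) b s‖ ^ 2 := by
    intro M
    rw [sum_comm]
    refine sum_congr rfl fun s _ => ?_
    rw [dot_eigen hX, Complex.re_sum]
    refine sum_congr rfl fun b _ => ?_
    rw [Complex.re_ofReal_mul, ← Complex.normSq_eq_conj_mul_self, Complex.ofReal_re, Complex.sq_norm]
    rfl
  have hmulV : ∀ M : Matrix ι ι ℂ, ∀ b, ∑ s, ‖(M * Vᴴ) b s‖ ^ 2 = ∑ l, ‖M b l‖ ^ 2 := by
    intro M b
    have e : (M * Vᴴ) * (M * Vᴴ)ᴴ = M * Mᴴ := by
      rw [conjTranspose_mul, conjTranspose_conjTranspose, Matrix.mul_assoc, ← Matrix.mul_assoc Vᴴ,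
        h1, Matrix.one_mul]
    have := congrArg (fun N : Matrix ι ι ℂ => (N b b).re) e
    generalize M * Vᴴ = Q at this ⊢
    simpa only [mul_apply, conjTranspose_apply, RCLike.star_def, Complex.mul_conj, Complex.re_sum,
      Complex.ofReal_re, ← Complex.sq_norm] using this
  have hlhs : ∑ k, ∑ l, ‖Y k l‖ ^ 2 * p k =
      ∑ s, (star (fun u => Y0 u s) ⬝ᵥ (gram w β *ᵥ fun u => Y0 u s)).re := by
    rw [hquad]
    refine sum_congr rfl fun b _ => ?_
    rw [← mul_sum, hY0, ← Matrix.mul_assoc, ← Matrix.mul_assoc, h1, Matrix.one_mul, hmulV,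
      ← sum_mul, mul_comm]
  have hgrad : ∀ i, wsq p (Vᴴ * (amp β i)ᴴ * V * Yᴴ - Yᴴ * (Vᴴ * (amp β i)ᴴ * V)) =
      ∑ s, (star (fun u => (β u i - β s i) * Y0 u s) ⬝ᵥ
        (gram w β *ᵥ fun u => (β u i - β s i) * Y0 u s)).re := by
    intro i
    have e : (fun u s => (β u i - β s i) * Y0 u s) = (amp β i * Y0 - Y0 * amp β i : Matrix ι ι ℂ) := by
      funext u s
      simp [amp, diagonal_mul, mul_diagonal]
      ring
    have hq := hquad (amp β i * Y0 - Y0 * amp β i)
    rw [← e] at hq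
    rw [hq, e]
    have hM : Vᴴ * (amp β i * Y0 - Y0 * amp β i) =
        (Vᴴ * (amp β i)ᴴ * V * Yᴴ - Yᴴ * (Vᴴ * (amp β i)ᴴ * V))ᴴ * -1 * Vᴴ := by
      rw [hY0]
      simp only [conjTranspose_sub, conjTranspose_mul, conjTranspose_conjTranspose, Matrix.mul_sub,
        Matrix.sub_mul, Matrix.mul_neg, Matrix.mul_one, Matrix.neg_mul, Matrix.mul_assoc]
      have c2 : ∀ Z, Vᴴ * (V * Z) = Z := fun Z => by rw [← Matrix.mul_assoc, h1, Matrix.one_mul]
      simp only [c2, h2, Matrix.mul_one]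
      abel
    rw [hM, wsq]
    refine sum_congr rfl fun b _ => ?_
    rw [← mul_sum, hmulV]
    congr 1
    refine sum_congr rfl fun l _ => ?_
    rw [Matrix.mul_neg, Matrix.mul_one, Matrix.neg_apply, norm_neg, conjTranspose_apply, norm_star]
  rw [hlhs]
  have hcol : ∀ s, (star (fun u => Y0 u s) ⬝ᵥ (gram w β *ᵥ fun u => Y0 u s)).re -
      ‖(gram w β * Y0) s s‖ ^ 2 / w s ≤
      ∑ i, (star (fun u => (β u i - β s i) * Y0 u s) ⬝ᵥ
        (gram w β *ᵥ fun u => (β u i - β s i) * Y0 u s)).re := by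
    intro s
    have h := hP s (fun u => (Real.sqrt (w u) : ℂ) * Y0 u s)
    rw [qform_scaled hw0] at h
    have e : ∀ i, qform β (fun u => (β u i - β s i) * ((Real.sqrt (w u) : ℂ) * Y0 u s))
        (fun u => (β u i - β s i) * ((Real.sqrt (w u) : ℂ) * Y0 u s)) =
        star (fun u => (β u i - β s i) * Y0 u s) ⬝ᵥ
          (gram w β *ᵥ fun u => (β u i - β s i) * Y0 u s) := fun i => by
      rw [← qform_scaled hw0]
      congr 1 <;> (funext u; ring)
    simp only [e] at h
    have hrow : (gram w β * Y0) s s = (Real.sqrt (w s) : ℂ) *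
        ∑ u, ovl (β s) (β u) * ((Real.sqrt (w u) : ℂ) * Y0 u s) := by
      rw [mul_apply, mul_sum]
      refine sum_congr rfl fun u _ => ?_
      rw [gram, of_apply]
      push_cast
      ring
    rwa [hrow, norm_mul, Complex.norm_real, mul_pow, Real.norm_eq_abs, sq_abs,
      Real.sq_sqrt (hw0 s), mul_div_cancel_left₀ _ (hw s).ne']
  have hdiag : ∑ s, ‖(gram w β * Y0) s s‖ ^ 2 / w s ≤ ∑ k, ∑ l, ‖Y k l‖ ^ 2 * (p k ^ 2 / p l) := by
    set Z := V * (dg p * Y) with hZ
    have hG : gram w β * Y0 = Z * Vᴴ := by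
      rw [hX, hY0, hZ]
      simp only [Matrix.mul_assoc]
      rw [← Matrix.mul_assoc Vᴴ V, h1, Matrix.one_mul]
    have hwd : ∀ s, ∑ l, p l * ‖V s l‖ ^ 2 = w s := fun s => by
      have := congrArg (fun N : Matrix ι ι ℂ => (N s s).re) hX
      simp only [gram_diag hw0, Complex.ofReal_re, dg] at this
      rw [this, mul_apply, Complex.re_sum]
      simp only [mul_diagonal, conjTranspose_apply, RCLike.star_def]
      refine sum_congr rfl fun l _ => ?_
      rw [mul_right_comm, Complex.mul_conj, ← Complex.ofReal_mul, Complex.ofReal_re, Complex.sq_norm,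
        mul_comm]
    calc ∑ s, ‖(gram w β * Y0) s s‖ ^ 2 / w s
        ≤ ∑ s, ∑ l, ‖Z s l‖ ^ 2 / p l := sum_le_sum fun s _ => by
          rw [div_le_iff₀ (hw s), hG, mul_apply]
          refine (pow_le_pow_left₀ (norm_nonneg _) (norm_sum_le _ _) 2).trans ?_
          have := sum_mul_sq_le_sq_mul_sq univ (fun l => ‖Z s l‖ / Real.sqrt (p l))
            (fun l => Real.sqrt (p l) * ‖V s l‖)
          have e : ∀ l, ‖Z s l‖ / Real.sqrt (p l) * (Real.sqrt (p l) * ‖V s l‖) =
              ‖Z s l * Vᴴ l s‖ := fun l => by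
            rw [norm_mul, conjTranspose_apply, norm_star, ← mul_assoc,
              div_mul_cancel₀ _ (Real.sqrt_pos.2 (hp l)).ne']
          simp only [e, div_pow, mul_pow, Real.sq_sqrt (hp _).le, hwd] at this
          exact this
      _ = ∑ l, (∑ s, ‖Z s l‖ ^ 2) / p l := by rw [sum_comm]; simp only [sum_div]
      _ = ∑ k, ∑ l, ‖Y k l‖ ^ 2 * (p k ^ 2 / p l) := by
          rw [sum_comm (f := fun k l => ‖Y k l‖ ^ 2 * (p k ^ 2 / p l))]
          refine sum_congr rfl fun l _ => ?_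
          have e : (Zᴴ * Z) = (dg p * Y)ᴴ * (dg p * Y) := by
            rw [hZ, conjTranspose_mul V, Matrix.mul_assoc, ← Matrix.mul_assoc Vᴴ, h1, Matrix.one_mul]
          generalize hQ : dg p * Y = Q at e
          have := congrArg (fun N : Matrix ι ι ℂ => (N l l).re) e
          simp only [mul_apply, conjTranspose_apply, RCLike.star_def, Complex.re_sum,
            ← Complex.normSq_eq_conj_mul_self, Complex.ofReal_re, ← Complex.sq_norm] at this
          rw [this, sum_div]
          refine sum_congr rfl fun k _ => ?_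
          rw [← hQ, dg, Matrix.diagonal_mul, norm_mul, Complex.norm_real, mul_pow, Real.norm_eq_abs,
            sq_abs]
          ring
  have hsum := sum_le_sum fun s (_ : s ∈ univ) => hcol s
  rw [sum_sub_distrib, sum_comm (f := fun s i => (star (fun u => (β u i - β s i) * Y0 u s) ⬝ᵥ
        (gram w β *ᵥ fun u => (β u i - β s i) * Y0 u s)).re)] at hsum
  simp only [← hgrad] at hsum
  linarith

/-- weight lost by `a_j†` outside the span -/
theorem excess_nonneg {w : ι → ℝ} {β : ι → Fin n → ℂ} (hw : ∀ s, 0 ≤ w s) (hA : AdjPos β)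
    {V : Matrix ι ι ℂ} {p : ι → ℝ} (h1 : Vᴴ * V = 1) (h2 : V * Vᴴ = 1) (hp : ∀ k, 0 < p k)
    (hX : gram w β = V * dg p * Vᴴ) (j : Fin n) (a : ι) :
    0 ≤ 1 - ∑ b, p a / p b * ‖(Vᴴ * (amp β j)ᴴ * V) b a‖ ^ 2
      + ∑ b, p b / p a * ‖(Vᴴ * (amp β j)ᴴ * V) a b‖ ^ 2 := by
  set C := Vᴴ * (amp β j)ᴴ * V with hC
  have hCh : Cᴴ = Vᴴ * amp β j * V := by
    rw [hC, conjTranspose_mul, conjTranspose_mul, conjTranspose_conjTranspose,
      conjTranspose_conjTranspose, Matrix.mul_assoc]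
  set u : ι → ℂ := fun b => if b = a then ((Real.sqrt (p a))⁻¹ : ℝ) else 0 with hu
  set v : ι → ℂ := fun b => ((-(Real.sqrt (p a) / p b) : ℝ) : ℂ) * C b a with hv
  have hc : ∀ x : ι → ℂ, Vᴴ *ᵥ (V *ᵥ x) = x := fun x => by rw [mulVec_mulVec, h1, one_mulVec]
  have hl : ∀ x : ι → ℂ, Vᴴ *ᵥ (fun s => β s j * (V *ᵥ x) s) = Cᴴ *ᵥ x := fun x => by
    rw [hCh, ← mulVec_mulVec, ← mulVec_mulVec]
    congr 1
    funext s
    rw [amp, mulVec_diagonal]
  have h := hA j (fun s => (Real.sqrt (w s) : ℂ) * (V *ᵥ u) s)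
    (fun s => (Real.sqrt (w s) : ℂ) * (V *ᵥ v) s)
  have ec : ∀ x : ι → ℂ, (fun s => β s j * ((Real.sqrt (w s) : ℂ) * x s)) =
      fun s => (Real.sqrt (w s) : ℂ) * (β s j * x s) := fun x => funext fun s => by ring
  simp only [ec, qform_scaled hw, dot_eigen hX, hc, hl] at h
  have hsp : 0 < Real.sqrt (p a) := Real.sqrt_pos.2 (hp a)
  have hsq : Real.sqrt (p a) * Real.sqrt (p a) = p a := Real.mul_self_sqrt (hp a).le
  have t1 : (∑ b, (p b : ℂ) * (conj (u b) * u b)).re = 1 := by
    rw [Fintype.sum_eq_single a fun b hb => by simp [hu, hb]]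
    simp only [hu, if_true, Complex.conj_ofReal, ← Complex.ofReal_mul, Complex.ofReal_re]
    field_simp
    rw [Real.sq_sqrt (hp a).le]
  have hCu : ∀ b, (Cᴴ *ᵥ u) b = ((Real.sqrt (p a))⁻¹ : ℝ) * conj (C a b) := fun b => by
    rw [mulVec, dotProduct, Fintype.sum_eq_single a fun c hc => by simp [hu, hc]]
    simp only [hu, if_true, conjTranspose_apply, RCLike.star_def]
    ring
  have t2 : (∑ b, (p b : ℂ) * (conj ((Cᴴ *ᵥ u) b) * (Cᴴ *ᵥ u) b)).re =
      ∑ b, p b / p a * ‖C a b‖ ^ 2 := by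
    rw [Complex.re_sum]
    refine sum_congr rfl fun b _ => ?_
    rw [hCu, Complex.re_ofReal_mul, ← Complex.normSq_eq_conj_mul_self, Complex.ofReal_re,
      Complex.normSq_mul, Complex.normSq_ofReal, Complex.normSq_conj, Complex.sq_norm, ← mul_inv,
      hsq]
    ring
  have t3 : (∑ b, (p b : ℂ) * (conj (u b) * (Cᴴ *ᵥ v) b)).re =
      -∑ b, p a / p b * ‖C b a‖ ^ 2 := by
    rw [Fintype.sum_eq_single a fun b hb => by simp [hu, hb]]
    simp only [hu, if_true, Complex.conj_ofReal, mulVec, dotProduct, conjTranspose_apply,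
      RCLike.star_def, mul_sum, Complex.re_sum, ← sum_neg_distrib]
    refine sum_congr rfl fun b _ => ?_
    rw [hv, mul_comm (conj (C b a)), mul_assoc ((_ : ℝ) : ℂ) (C b a), Complex.mul_conj,
      ← Complex.ofReal_mul, ← Complex.ofReal_mul, ← Complex.ofReal_mul, Complex.ofReal_re,
      Complex.sq_norm]
    field_simp
  have t4 : (∑ b, (p b : ℂ) * (conj (v b) * v b)).re = ∑ b, p a / p b * ‖C b a‖ ^ 2 := by
    rw [Complex.re_sum]
    refine sum_congr rfl fun b _ => ?_
    rw [hv, Complex.re_ofReal_mul, ← Complex.normSq_eq_conj_mul_self, Complex.ofReal_re,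
      Complex.normSq_mul, Complex.normSq_ofReal, Complex.sq_norm]
    have := (hp b).ne'
    field_simp
    rw [Real.sq_sqrt (hp a).le]
    ring
  rw [t1, t2, t3, t4] at h
  linarith

/-! ### integration -/

/-- `μ ↦ -μ M(μ)`: the profile read at `μ = 1/λ` -/
def psi (A : Fin n → Matrix ι ι ℂ) (p : ι → ℝ) (μ : ℝ) : ℝ := -(μ * mm A p μ)

theorem bound_classical {A : Fin n → Matrix ι ι ℂ} {p : ι → ℝ} (hA : Low 0 A)
    (hp : ∀ k, 0 < p k) (hsum : ∑ k, p k = 1) (hn : 0 < n)
    (hkey : ∀ μ : ℝ, 0 < μ → -mm A p μ + μ * YY A p μ ≤ Gam A p μ) {c : ℝ} (hc : 0 < c)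
    {m : ℝ → ℝ} (hm : ∀ l, 0 < l → m l = psi A p (1 / l)) (hmc : ContinuousOn m (Set.Icc 0 c)) :
    (∫ l in (0:ℝ)..c, m l ^ 2 / n) + m c ≤ d1val A p := by
  have hd : ∀ s, 0 ≤ s → HasDerivAt (prim 0 A p) (Gam A p s) s := fun s hs =>
    primD_eq_Gam hA hp hs ▸ hasDerivAt_prim hp hs
  have hlim := tendsto_prim hA hp
  rw [mul_zero, zero_mul, add_zero] at hlim
  -- below the cut in `μ`
  have h1 : m c ≤ prim 0 A p (1 / c) - prim 0 A p 0 := by
    have hmono : MonotoneOn (fun s => prim 0 A p s - psi A p s) (Set.Icc 0 (1 / c)) := by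
      refine monotoneOn_of_hasDerivWithinAt_nonneg
        (f' := fun s => Gam A p s - (-(1 * mm A p s + s * -YY A p s)))
        (convex_Icc _ _)
        (fun s hs => ((hd s hs.1).sub
          (((hasDerivAt_id' s).mul (hasDerivAt_mm hp hs.1)).neg)).continuousAt.continuousWithinAt)
        ?_ ?_
      · intro s hs
        rw [interior_Icc] at hs
        exact ((hd s hs.1.le).sub
          (((hasDerivAt_id' s).mul (hasDerivAt_mm hp hs.1.le)).neg)).hasDerivWithinAt
      · intro s hs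
        rw [interior_Icc] at hs
        linarith [hkey s hs.1]
    have := hmono (Set.left_mem_Icc.2 (by positivity)) (Set.right_mem_Icc.2 (by positivity))
      (by positivity)
    simp only [psi, zero_mul, neg_zero, sub_zero] at this
    rw [hm c hc, psi]
    linarith
  -- above the cut
  have h2 : ∀ a, 0 < a → a ≤ c →
      (∫ l in a..c, m l ^ 2 / n) ≤ prim 0 A p (1 / a) - prim 0 A p (1 / c) := by
    intro a ha hac
    have hP : ∀ l, 0 < l → HasDerivAt (fun l => -prim 0 A p (1 / l))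
        (Gam A p (1 / l) / l ^ 2) l := by
      intro l hl
      have h := ((hd (1 / l) (by positivity)).comp l
        (((hasDerivAt_inv hl.ne').congr_of_eventuallyEq
          (Eventually.of_forall fun y => one_div y)))).neg
      exact h.congr_deriv (by field_simp)
    have := intervalIntegral.integral_le_sub_of_hasDeriv_right_of_le hac
      (fun s hs => (hP s (ha.trans_le hs.1)).continuousAt.continuousWithinAt)
      (fun s hs => (hP s (ha.trans hs.1)).hasDerivWithinAt)
      (φ := fun l => m l ^ 2 / n)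
      (((hmc.mono (Set.Icc_subset_Icc_left ha.le)).pow 2).div_const _).integrableOn_Icc
      (fun s hs => ?_)
    · linarith
    · have hs0 : 0 < s := ha.trans hs.1
      rw [hm s hs0, psi, neg_sq, mul_pow, div_pow, one_pow, div_mul_eq_mul_div, one_mul, div_div,
        mul_comm, ← div_div]
      exact div_le_div_of_nonneg_right
        (mm_sq_le_Gam hp hsum (by positivity) hn) (sq_nonneg s)
  -- let `a → 0`
  have hint : IntervalIntegrable (fun l => m l ^ 2 / n) MeasureTheory.volume 0 c :=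
    ((hmc.pow 2).div_const _).intervalIntegrable_of_Icc hc.le
  have hl : Tendsto (fun a => ∫ l in a..c, m l ^ 2 / n) (𝓝[>] 0)
      (𝓝 (∫ l in (0:ℝ)..c, m l ^ 2 / n)) := by
    have hcont := intervalIntegral.continuousOn_primitive_interval'
      (b₁ := 0) (b₂ := c) hint (a := c) (Set.right_mem_uIcc)
    have h0 := (hcont 0 Set.left_mem_uIcc).tendsto
    have : Tendsto (fun a => ∫ l in c..a, m l ^ 2 / n) (𝓝[>] 0)
        (𝓝 (∫ l in c..0, m l ^ 2 / n)) := by
      refine h0.mono_left ?_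
      rw [nhdsWithin_le_iff, Set.uIcc_of_le hc.le]
      exact mem_of_superset (Ioo_mem_nhdsGT hc) fun x hx => ⟨hx.1.le, hx.2.le⟩
    rw [intervalIntegral.integral_symm c 0]
    exact this.neg.congr fun a => (intervalIntegral.integral_symm c a).symm
  have hr : Tendsto (fun a => prim 0 A p (1 / a) - prim 0 A p (1 / c)) (𝓝[>] 0)
      (𝓝 (d1val A p - (prim 0 A p (1 / c) - prim 0 A p 0))) := by
    have := (hlim.comp (tendsto_inv_nhdsGT_zero (𝕜 := ℝ))).sub_const
      (prim 0 A p (1 / c) - prim 0 A p 0)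
    refine this.congr fun a => ?_
    simp only [Function.comp_apply, one_div]
    ring
  have h3 : (∫ l in (0:ℝ)..c, m l ^ 2 / n) ≤ d1val A p - (prim 0 A p (1 / c) - prim 0 A p 0) := by
    refine le_of_tendsto_of_tendsto hl hr ?_
    filter_upwards [Ioo_mem_nhdsGT hc] with a ha using h2 a ha.1 ha.2.le
  linarith

theorem exists_eigen' {σ : Matrix ι ι ℂ} (hσ : σ.PosDef) :
    ∃ (V : Matrix ι ι ℂ) (p : ι → ℝ), Vᴴ * V = 1 ∧ V * Vᴴ = 1 ∧
      σ = V * dg p * Vᴴ ∧ (∀ i, 0 < p i) ∧ ∑ i, p i = σ.trace.re := by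
  refine ⟨_, hσ.isHermitian.eigenvalues, eig_star_mul hσ.isHermitian, eig_mul_star _, ?_,
    hσ.eigenvalues_pos, (trace_re_eq_sum hσ.isHermitian).symm⟩
  rw [dg, ← eig_conj hσ.isHermitian]
  simp only [Matrix.mul_assoc]
  rw [eig_mul_star, Matrix.mul_one, ← Matrix.mul_assoc, eig_mul_star, Matrix.one_mul]

theorem Lsch_neg (A : Fin n → Matrix ι ι ℂ) (X : Matrix ι ι ℂ) : Lsch A (-X) = -Lsch A X := by
  simp only [Lsch, Matrix.mul_neg, Matrix.neg_mul, ← neg_add, smul_neg, ← sum_neg_distrib]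
  exact sum_congr rfl fun i _ => by abel

/-- the dissipation hypothesis along the Gram flow -/
theorem dissip_gflow {w : ι → ℝ} {α : ι → Fin n → ℂ} (hn : 0 < n) (hw : ∀ s, 0 < w s)
    (hw1 : ∑ s, w s = 1) (hpd : ∀ t, (gflow w α t).PosDef)
    (hP : ∀ t, Poincare (att1 α (Real.exp (-t)))) (hA2 : ∀ t, AdjPos (att1 α (Real.exp (-t))))
    (t : ℝ) :
    ∃ D1 : ℝ, HasDerivAt (gdiss w α) D1 t ∧
      ∀ D' : ℝ → ℝ, D' t = D1 → Dissip (n : ℝ) (gdiss w α) D' t := by
  obtain ⟨V, p, h1, h2, hσ, hp, hps⟩ := exists_eigen' (hpd t)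
  rw [gflow, trace_gram (fun s => (hw s).le), hw1, Complex.ofReal_one, Complex.one_re] at hps
  set β := att1 α (Real.exp (-t)) with hβ
  set C : Fin n → Matrix ι ι ℂ := fun i => Vᴴ * fam α t i * V with hCdef
  have hC : Low 0 C := low_conj _ (low_fam α t) h1 h2
  have hlog : CFC.log (gflow w α t) = V * dg (fun k => Real.log (p k)) * Vᴴ :=
    log_eq h1 h2 (by rw [hσ]; rfl) (hpd t).isHermitian
  have hL : Lsch (fam α t) (gflow w α t) = V * Bm C p * Vᴴ := by
    rw [hσ, Lsch_conj _ h1 h2]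
  have hgd : gdiss w α t = -dval C p := by
    rw [gdiss, hlog, hL, conj_trace h1]; rfl
  -- derivative
  have hpdev : ∀ᶠ s in 𝓝 t, (gflow w α s).PosDef := Eventually.of_forall hpd
  have hlogd := hasDerivAt_log hpdev (hasDerivAt_gflow w α t) h1 h2 (b := p) (by rw [hσ]; rfl)
  let T : Matrix ι ι ℂ →L[ℝ] ℝ :=
    LinearMap.toContinuousLinearMap
      { toFun := fun M => M.trace.re
        map_add' := fun M N => by simp [trace_add]
        map_smul' := fun c M => by simp [trace_smul] }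
  have hd : HasDerivAt (gdiss w α) (d1val C p + dval C p) t := by
    refine (T.hasFDerivAt.comp_hasDerivAt t ((hasDerivAt_LX w α t).mul hlogd)).neg.congr_deriv ?_
    have e : Vᴴ * (V * Bm C p * Vᴴ) * V = Bm C p := by
      simp only [Matrix.mul_assoc]
      rw [h1, Matrix.mul_one, ← Matrix.mul_assoc, h1, Matrix.one_mul]
    have hdl : dLog V p (-Lsch (fam α t) (gflow w α t)) =
        -(V * (Matrix.of fun k l => (lamD (p k) (p l) : ℂ) * Bm C p k l) * Vᴴ) := by
      rw [dLog, hL, Matrix.mul_neg, Matrix.neg_mul, e, ← Matrix.neg_mul, ← Matrix.mul_neg]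
      congr 2
      ext k l
      simp
    have hLL : Lsch (fam α t) (Lsch (fam α t) (gflow w α t)) = V * Lsch C (Bm C p) * Vᴴ := by
      rw [hL, Lsch_conj _ h1 h2]
    simp only [T, LinearMap.coe_toContinuousLinearMap', LinearMap.coe_mk, AddHom.coe_mk]
    rw [hdl, hLL, hlog, hL]
    simp only [Matrix.sub_mul, Matrix.neg_mul, Matrix.mul_neg, trace_add, trace_sub,
      trace_neg, conj_trace h1, Complex.add_re, Complex.sub_re, Complex.neg_re]
    simp only [d1val, dval]
    ring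
  refine ⟨_, hd, fun D' hD' => ?_⟩
  have hG : gram w β = V * dg p * Vᴴ := hσ
  let e : Fin n → ι → ℝ := fun j a => 1 - ∑ b, p a / p b * ‖C j b a‖ ^ 2
      + ∑ b, p b / p a * ‖C j a b‖ ^ 2
  have he0 : ∀ j a, 0 ≤ e j a := fun j a =>
    excess_nonneg (fun s => (hw s).le) (hA2 t) h1 h2 hp hG j a
  let q : (Fin n × ι × ι) ⊕ (Fin n × ι) → ℝ := Sum.elim
    (fun x => ‖C x.1 x.2.1 x.2.2‖ ^ 2 * p x.2.2 ^ 2 / p x.2.1) (fun x => p x.2 * e x.1 x.2)
  let r : (Fin n × ι × ι) ⊕ (Fin n × ι) → ℝ := Sum.elim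
    (fun x => p x.2.1 / p x.2.2) (fun _ => 0)
  refine dissip_of_profile Finset.univ q r (Nat.cast_pos.2 hn) ?_ ?_ ?_ ?_ ?_
  · rintro (x | x) -
    · exact div_nonneg (mul_nonneg (sq_nonneg _) (sq_nonneg _)) (hp _).le
    · exact mul_nonneg (hp _).le (he0 _ _)
  · rintro (x | x) -
    · exact div_nonneg (hp _).le (hp _).le
    · exact le_rfl
  · simp only [q, r, e, Fintype.sum_sum_type, Sum.elim_inl, Sum.elim_inr, Fintype.sum_prod_type,
      sub_zero, mul_one, ← sum_add_distrib]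
    have : ∀ j, ∑ k, ((∑ l, ‖C j k l‖ ^ 2 * p l ^ 2 / p k * (1 - p k / p l)) +
        p k * (1 - ∑ b, p k / p b * ‖C j b k‖ ^ 2 + ∑ b, p b / p k * ‖C j k b‖ ^ 2)) = 1 := by
      intro j
      have e1 : ∀ k l, ‖C j k l‖ ^ 2 * p l ^ 2 / p k * (1 - p k / p l) =
          p l * (p l / p k * ‖C j k l‖ ^ 2) - p l * ‖C j k l‖ ^ 2 := fun k l => by
        have := (hp k).ne'; have := (hp l).ne'; field_simp
      have e2 : ∀ k l, p k * (p l / p k * ‖C j k l‖ ^ 2) = p l * ‖C j k l‖ ^ 2 := fun k l => by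
        have := (hp k).ne'; field_simp
      simp only [e1, mul_add, mul_sub, mul_one, mul_sum, sum_add_distrib, sum_sub_distrib, hps, e2]
      rw [sum_comm (f := fun k b => p k * (p k / p b * ‖C j b k‖ ^ 2))]
      ring
    rw [sum_congr rfl fun j _ => this j]
    simp
  · rw [hgd, dval_eq]
    simp only [q, r, Fintype.sum_sum_type, Sum.elim_inl, Sum.elim_inr, Fintype.sum_prod_type,
      zero_mul, mul_zero, sum_const_zero, add_zero, ← sum_neg_distrib]
    refine sum_congr rfl fun j _ => sum_congr rfl fun k _ => sum_congr rfl fun l _ => ?_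
    have := (hp k).ne'; have := (hp l).ne'
    rw [Real.log_div (hp k).ne' (hp l).ne']
    field_simp
  · intro c hc
    rw [hD', hgd, add_neg_cancel_right]
    refine bound_classical hC hp hps hn (fun μ hμ => ?_) hc (fun l hl => ?_) ?_
    · -- the mirrored key inequality
      have hk : ∀ j, ∑ k, ∑ l, ‖Yop C p μ j k l‖ ^ 2 * (p k - p k ^ 2 / p l) ≤
          ∑ i, wsq p (C i * (Yop C p μ j)ᴴ - (Yop C p μ j)ᴴ * C i) := by
        intro j
        have := classical_key hw (hP t) h1 h2 hp hG (Yop C p μ j)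
        simp only [mul_sub, sum_sub_distrib]
        simp only [hCdef, fam, ← hβ] at this ⊢
        linarith
      have hwn : ∀ Z : Matrix ι ι ℂ, 0 ≤ wsq p Z := fun Z =>
        sum_nonneg fun l _ => mul_nonneg (hp l).le (sum_nonneg fun k _ => sq_nonneg _)
      calc -mm C p μ + μ * YY C p μ
          = ∑ j, ∑ k, ∑ l, ‖Yop C p μ j k l‖ ^ 2 * (p k - p k ^ 2 / p l) := by
            simp only [mm, YY, mul_sum, ← sum_neg_distrib, ← sum_add_distrib]
            refine sum_congr rfl fun j _ => sum_congr rfl fun k _ => sum_congr rfl fun l _ => ?_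
            simp only [Yop, of_apply, norm_mul, Complex.norm_real, Real.norm_eq_abs, mul_pow, sq_abs,
              ww]
            have hden := (den_pos hp hμ.le k l).ne'
            have := (hp l).ne'
            field_simp
            ring
        _ ≤ ∑ j, ∑ i, wsq p (C i * (Yop C p μ j)ᴴ - (Yop C p μ j)ᴴ * C i) :=
            sum_le_sum fun j _ => hk j
        _ ≤ Gam C p μ := by
            rw [Gam, sum_comm]
            exact sum_le_sum fun i _ => sum_le_sum fun j _ =>
              le_add_of_nonneg_left (mul_nonneg hμ.le (hwn _))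
    · simp only [profile, psi, mm, q, r, Fintype.sum_sum_type, Sum.elim_inl, Sum.elim_inr,
        Fintype.sum_prod_type, zero_div, mul_zero, sum_const_zero, add_zero, mul_sum,
        ← sum_neg_distrib, ww]
      refine sum_congr rfl fun j _ => sum_congr rfl fun k _ => sum_congr rfl fun l' _ => ?_
      have := hp k; have := hp l'
      field_simp
      ring
    · refine continuousOn_finsetSum _ fun x _ => continuousOn_const.mul ?_
      have hr : 0 ≤ r x := by
        rcases x with x | x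
        · exact div_nonneg (hp _).le (hp _).le
        · exact le_rfl
      exact continuousOn_const.div (continuousOn_const.add (continuousOn_id.mul continuousOn_const))
        fun s hs => (add_pos_of_pos_of_nonneg one_pos (mul_nonneg hs.1 hr)).ne'

theorem gram_inequality {w : ι → ℝ} {α : ι → Fin n → ℂ} (hn : 0 < n) (hw : ∀ s, 0 < w s)
    (hw1 : ∑ s, w s = 1) (hpd : ∀ t, (gflow w α t).PosDef)
    (hP : ∀ t, Poincare (att1 α (Real.exp (-t)))) (hA2 : ∀ t, AdjPos (att1 α (Real.exp (-t))))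
    {η : ℝ} (h0 : 0 < η) (h1 : η ≤ 1) :
    (n : ℝ) * g (η * gInv (vN (gram w α) / n)) ≤ vN (gram w (att1 α η)) := by
  have hn' : (0:ℝ) < n := Nat.cast_pos.2 hn
  have htr : ∀ t, (gflow w α t).trace = 1 := fun t => by
    rw [gflow, trace_gram (fun s => (hw s).le), hw1, Complex.ofReal_one]
  have ht : 0 ≤ -Real.log η := neg_nonneg.2 (Real.log_nonpos h0.le h1)
  have hend : gflow w α (-Real.log η) = gram w (att1 α η) := by
    rw [gflow, neg_neg, Real.exp_log h0]
  have hstart : gflow w α 0 = gram w α := by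
    rw [gflow, neg_zero, Real.exp_zero]
    congr 1
    funext s i
    simp [att1]
  have hv0 : ∀ t, 0 ≤ vN (gflow w α t) := fun t => vN_nonneg (hpd t).posSemidef (htr t)
  rcases subsingleton_or_nontrivial ι with hι | hι
  · have hz : vN (gram w α) = 0 := by
      have e : gram w α = 1 := by
        ext s u
        obtain rfl := Subsingleton.elim s u
        have : w s = 1 := by rw [← hw1, Fintype.sum_eq_single s fun x hx => absurd (Subsingleton.elim x s) hx]
        rw [gram_diag (fun s => (hw s).le), one_apply_eq, this, Complex.ofReal_one]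
      rw [e, vN, cfc_apply_one (R := ℝ)]
      simp
    rw [hz, zero_div, gInv_of_nonpos le_rfl, mul_zero, g_zero, mul_zero, ← hend]
    exact hv0 _
  choose D1 hD1 hdis using dissip_gflow hn hw hw1 hpd hP hA2
  have hS : ∀ t, 0 < t → HasDerivAt (fun s => vN (gflow w α s)) (-gdiss w α t) t := fun t _ => by
    refine (hasDerivAt_vN (Eventually.of_forall hpd)
      (Eventually.of_forall fun s => (htr s).trans (htr t).symm) (hasDerivAt_gflow w α t)).congr_deriv ?_
    rw [gdiss, neg_neg, Matrix.neg_mul, trace_neg, Complex.neg_re, neg_neg]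
  have hcont : ContinuousOn (fun s => vN (gflow w α s)) (Set.Ici 0) :=
    continuousOn_vN.comp (fun s _ => (hasDerivAt_gflow w α s).continuousAt.continuousWithinAt)
      fun s _ => (hpd s).isHermitian
  have hpos : ∀ t, 0 < t → 0 < vN (gflow w α t) := fun t _ => by
    have hσ := hpd t
    set ev := hσ.isHermitian.eigenvalues
    rw [vN_eq_sum hσ.isHermitian]
    have hs : ∑ i, ev i = 1 := by rw [← trace_re_eq_sum hσ.isHermitian, htr, Complex.one_re]
    have hlt : ∀ i, ev i < 1 := fun i => by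
      obtain ⟨i', hi'⟩ := exists_ne i
      rw [← hs]
      exact single_lt_sum hi' (mem_univ i) (mem_univ i') (hσ.eigenvalues_pos i')
        fun k _ _ => (hσ.eigenvalues_pos k).le
    refine sum_pos (fun i _ => ?_) univ_nonempty
    rw [Real.negMulLog, neg_mul]
    exact neg_pos.2 (mul_neg_of_pos_of_neg (hσ.eigenvalues_pos i)
      (Real.log_neg (hσ.eigenvalues_pos i) (hlt i)))
  have h0n : 0 ≤ vN (gram w α) / n := div_nonneg (hstart ▸ hv0 0) hn'.le
  have := gronwall hn' hS (fun t _ => hD1 t) hcont hpos (fun t _ => hdis t D1 rfl)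
    (gInv_nonneg (vN (gram w α) / n)) (by rw [hstart]; exact g_gInv_nonneg h0n) ht
  rw [neg_neg, Real.exp_log h0, hend, le_div_iff₀ hn'] at this
  linarith

end

end Vale.Agent.P369.Classical
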