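import Vale.Agent.P369.Classical.Kernel
import Vale.Agent.P369.Classical.Main

/-!
P369: the Gram-matrix inequality for every finite mixture of coherent states.
-/

namespace Vale.Agent.P369.Classical

noncomputable section

open Matrix Finset Filter
open Vale.Agent.P369.Fock Vale.Agent.P369.Dissipation Vale.Agent.P369.Ode
open scoped ComplexConjugate ComplexOrder Topology

set_option linter.unusedSectionVars false

variable {n : ℕ} {ι : Type*} [Fintype ι] [DecidableEq ι]

theorem qform_eq (α : ι → Fin n → ℂ) (c d : ι → ℂ) :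
    qform α c d = ∑ s, ∑ t, conj (c s) * d t * ovl (α s) (α t) :=
  sum_congr rfl fun s _ => sum_congr rfl fun t _ => by ring

theorem qform_conj (α : ι → Fin n → ℂ) (c d : ι → ℂ) :
    conj (qform α c d) = qform α d c := by
  simp only [qform, map_sum, map_mul, Complex.conj_conj, conj_ovl]
  rw [sum_comm]
  exact sum_congr rfl fun s _ => sum_congr rfl fun t _ => by ring

theorem poincare_holds (α : ι → Fin n → ℂ) : Poincare α := fun r c => by
  simp only [qform_eq]
  exact poincare α c r

theorem adjPos_holds (α : ι → Fin n → ℂ) : AdjPos α := fun j c d => by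
  have h := adjoint_pos α c d j
  have hsym : (qform α (fun s => α s j * d s) c).re = (qform α c (fun s => α s j * d s)).re := by
    rw [← qform_conj, Complex.conj_re]
  have e : ∑ s, ∑ t, (conj (c s) * c t * (1 + conj (α s j) * α t j)
      + conj (c s) * d t * α t j + conj (d s) * c t * conj (α s j) + conj (d s) * d t)
      * ovl (α s) (α t) = qform α c c + qform α (fun s => α s j * c s) (fun s => α s j * c s)
        + qform α c (fun s => α s j * d s) + qform α (fun s => α s j * d s) c + qform α d d := by
    simp only [qform_eq, ← sum_add_distrib, map_mul]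
    exact sum_congr rfl fun s _ => sum_congr rfl fun t _ => by ring
  rw [e] at h
  simp only [Complex.add_re] at h
  linarith

/-- coherent vectors at distinct amplitudes are linearly independent -/
theorem gram_posDef {w : ι → ℝ} {α : ι → Fin n → ℂ} (hw : ∀ s, 0 < w s)
    (hα : Function.Injective α) : (gram w α).PosDef := by
  refine PosDef.of_dotProduct_mulVec_pos (gram_isHermitian w α) fun x hx => ?_
  refine lt_of_le_of_ne ((gram_posSemidef w α).dotProduct_mulVec_nonneg x) fun hzero => hx ?_
  rw [← qform_scaled (fun s => (hw s).le), qform_eq] at hzero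
  set β : ι → Fin n → ℂ := α with hβ
  set c : ι → ℂ := fun s => (Real.sqrt (w s) : ℂ) * x s * ovl 0 (α s) with hc
  have hE : (∑ s, ∑ t, conj (c s) * c t * Complex.exp (dotc (β s) (β t))).re = 0 := by
    refine Eq.trans (congrArg Complex.re ?_) (congrArg Complex.re hzero.symm)
    refine sum_congr rfl fun s _ => sum_congr rfl fun t _ => ?_
    rw [ovl_frame (α s) (α t) 0, sub_zero, sub_zero]
    simp only [hc, hβ, map_mul, Complex.conj_ofReal]
    ring
  have hs : HasSum (fun k => ((1 / (k.factorial : ℝ) : ℝ)) *
      (∑ s, ∑ t, conj (c s) * c t * dotc (β s) (β t) ^ k).re) 0 := by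
    rw [← hE]
    have h1 : HasSum (fun k => ∑ s, ∑ t, conj (c s) * c t * (dotc (β s) (β t) ^ k / (k.factorial : ℂ)))
        (∑ s, ∑ t, conj (c s) * c t * Complex.exp (dotc (β s) (β t))) :=
      hasSum_sum fun s _ => hasSum_sum fun t _ => (hasSum_cexp _).mul_left _
    refine (Complex.hasSum_re h1).congr_fun fun k => ?_
    rw [← Complex.re_ofReal_mul, mul_sum]
    refine congrArg Complex.re (sum_congr rfl fun s _ => ?_)
    rw [mul_sum]
    refine sum_congr rfl fun t _ => ?_
    push_cast
    ring
  have hk : ∀ k : ℕ, (∑ s, ∑ t, conj (c s) * c t * dotc (β s) (β t) ^ k).re = 0 := fun k => by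
    have h0 := congrFun ((hasSum_zero_iff_of_nonneg fun k => mul_nonneg (by positivity)
      (kpos_pow β k c)).1 hs) k
    exact (mul_eq_zero.1 h0).resolve_left (by positivity)
  have hmon : ∀ k (f : Fin k → Fin n), ∑ s, c s * ∏ m, β s (f m) = 0 := by
    intro k f
    have h := hk k
    have e : ∀ s t, dotc (β s) (β t) ^ k
        = ∑ f : Fin k → Fin n, conj (∏ m, β s (f m)) * ∏ m, β t (f m) := by
      intro s t
      rw [dotc, ← Fin.prod_const k, prod_univ_sum]
      simp only [Fintype.piFinset_univ, map_prod, ← prod_mul_distrib]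
    simp only [e] at h
    rw [quad_rankOne] at h
    exact Complex.normSq_eq_zero.1
      ((sum_eq_zero_iff_of_nonneg fun f _ => Complex.normSq_nonneg _).1 h f (mem_univ f))
  funext r
  have hsep : ∀ s, s ≠ r → ∃ i, β r i ≠ β s i := fun s hs => by
    by_contra h
    push Not at h
    exact hs (hα (funext fun i => (h i).symm))
  choose i hi using hsep
  have hT : ∀ T : Finset {s // s ≠ r}, ∀ k (f : Fin k → Fin n),
      ∑ s, c s * (∏ t ∈ T, (β s (i t.1 t.2) - β t.1 (i t.1 t.2))) * ∏ m, β s (f m) = 0 := by
    intro T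
    induction T using Finset.induction_on with
    | empty => intro k f; simpa using hmon k f
    | @insert a T ha ih =>
      intro k f
      have h1 := ih (k + 1) (Fin.cons (i a.1 a.2) f)
      simp only [Fin.prod_univ_succ, Fin.cons_zero, Fin.cons_succ] at h1
      have h2 := congrArg (β a.1 (i a.1 a.2) * ·) (ih k f)
      simp only [mul_zero, mul_sum] at h2
      rw [← sub_eq_zero.2 (h1.trans h2.symm), ← sum_sub_distrib]
      refine sum_congr rfl fun s _ => ?_
      rw [prod_insert ha]
      ring
  have h := hT univ 0 Fin.elim0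
  simp only [univ_eq_empty (α := Fin 0), prod_empty, mul_one] at h
  rw [Fintype.sum_eq_single r fun s hs => by
    rw [prod_eq_zero (mem_univ (⟨s, hs⟩ : {s // s ≠ r})) (sub_self _), mul_zero]] at h
  have hP : (∏ t : {s // s ≠ r}, (β r (i t.1 t.2) - β t.1 (i t.1 t.2))) ≠ 0 :=
    prod_ne_zero_iff.2 fun t _ => sub_ne_zero.2 (hi t.1 t.2)
  have hcr := (mul_eq_zero.1 h).resolve_right hP
  simp only [hc, ovl, mul_eq_zero, Complex.exp_ne_zero, or_false, Complex.ofReal_eq_zero,
    (Real.sqrt_pos.2 (hw r)).ne', false_or] at hcr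
  exact hcr

theorem att1_injective {α : ι → Fin n → ℂ} (hα : Function.Injective α) {τ : ℝ} (hτ : 0 < τ) :
    Function.Injective (att1 α τ) := fun s t h =>
  hα (funext fun i => mul_left_cancel₀
    (Complex.ofReal_ne_zero.2 (Real.sqrt_pos.2 hτ).ne') (congrFun h i))

theorem continuous_gram : Continuous fun x : (ι → ℝ) × (ι → Fin n → ℂ) => gram x.1 x.2 := by
  refine continuous_matrix fun s t => ?_
  simp only [gram, of_apply, ovl]
  fun_prop

/-- the inequality for every finite mixture of coherent states -/
theorem gram_inequality_all {w : ι → ℝ} (α : ι → Fin n → ℂ) (hn : 0 < n) (hw : ∀ s, 0 ≤ w s)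
    (hw1 : ∑ s, w s = 1) {η : ℝ} (h0 : 0 ≤ η) (h1 : η ≤ 1) :
    (n : ℝ) * g (η * gInv (vN (gram w α) / n)) ≤ vN (gram w (att1 α η)) := by
  rcases h0.eq_or_lt with h | hη
  · subst h
    rw [zero_mul, g_zero, mul_zero]
    exact vN_nonneg (gram_posSemidef w _) (by rw [trace_gram hw, hw1, Complex.ofReal_one])
  set e : ι → ℕ := fun s => (Fintype.equivFin ι s : ℕ) with he
  have hinj : Function.Injective e := fun s t hst =>
    (Fintype.equivFin ι).injective (Fin.ext hst)
  set i0 : Fin n := ⟨0, hn⟩
  set wε : ℝ → ι → ℝ := fun ε s => (w s + ε) / (1 + (Fintype.card ι : ℝ) * ε) with hwε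
  set αε : ℝ → ι → Fin n → ℂ :=
    fun ε s => α s + Pi.single i0 ((ε : ℂ) * (e s : ℂ)) with hαε
  have hev : ∀ᶠ ε in 𝓝[>] (0:ℝ), Function.Injective (αε ε) := by
    have hall : ∀ᶠ ε in 𝓝[>] (0:ℝ), ∀ p : ι × ι, p.1 ≠ p.2 → αε ε p.1 ≠ αε ε p.2 := by
      refine eventually_all.2 fun p => ?_
      by_cases hp : p.1 = p.2
      · exact Eventually.of_forall fun ε h => absurd hp h
      set a := α p.1 i0 - α p.2 i0
      have hb : (e p.1 : ℂ) - (e p.2 : ℂ) ≠ 0 :=
        sub_ne_zero.2 fun hh => hp (hinj (Nat.cast_injective hh))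
      have key : ∀ᶠ ε : ℝ in 𝓝[>] 0, a + (ε : ℂ) * ((e p.1 : ℂ) - (e p.2 : ℂ)) ≠ 0 := by
        by_cases ha : a = 0
        · filter_upwards [self_mem_nhdsWithin] with ε hε
          rw [ha, zero_add]
          exact mul_ne_zero (Complex.ofReal_ne_zero.2 (ne_of_gt hε)) hb
        · refine Filter.Eventually.filter_mono nhdsWithin_le_nhds ?_
          refine ContinuousAt.eventually_ne (by fun_prop) ?_
          simpa using ha
      filter_upwards [key] with ε hε _ hcon
      refine hε ?_
      have := congrFun hcon i0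
      simp only [hαε, Pi.add_apply, Pi.single_eq_same] at this
      simp only [a]
      linear_combination this
    filter_upwards [hall] with ε hε s t hst
    by_contra hne
    exact hε (s, t) hne hst
  have hall : ∀ᶠ ε in 𝓝[>] (0:ℝ), (n : ℝ) * g (η * gInv (vN (gram (wε ε) (αε ε)) / n)) ≤
      vN (gram (wε ε) (att1 (αε ε) η)) := by
    filter_upwards [hev, self_mem_nhdsWithin] with ε hε (hpos : 0 < ε)
    have hden : 0 < 1 + (Fintype.card ι : ℝ) * ε := by positivity
    have hwpos : ∀ s, 0 < wε ε s := fun s => div_pos (add_pos_of_nonneg_of_pos (hw s) hpos) hden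
    refine gram_inequality hn hwpos ?_ (fun t => ?_) (fun t => poincare_holds _)
      (fun t => adjPos_holds _) hη h1
    · simp only [hwε, ← sum_div, sum_add_distrib, hw1, sum_const, nsmul_eq_mul, card_univ]
      exact div_self hden.ne'
    · exact gram_posDef hwpos (att1_injective hε (Real.exp_pos _))
  have hwc : ContinuousAt wε 0 := continuousAt_pi.2 fun s =>
    ContinuousAt.div (by fun_prop) (by fun_prop) (by simp)
  have hαc : Continuous αε := continuous_pi fun s =>
    continuous_const.add ((continuous_single i0).comp (by fun_prop))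
  have hw0 : wε 0 = w := by funext s; simp [hwε]
  have hα0 : αε 0 = α := by funext s; simp [hαε]
  have hatt : Continuous fun β : ι → Fin n → ℂ => att1 β η :=
    continuous_pi fun s => continuous_pi fun i => by simp only [att1]; fun_prop
  have lim : ∀ f : (ι → Fin n → ℂ) → ι → Fin n → ℂ, Continuous f →
      Tendsto (fun ε => vN (gram (wε ε) (f (αε ε)))) (𝓝[>] 0) (𝓝 (vN (gram w (f α)))) := by
    intro f hf
    have hg : Tendsto (fun ε => gram (wε ε) (f (αε ε))) (𝓝[>] 0) (𝓝 (gram w (f α))) := by
      have h := continuous_gram.continuousAt.comp (f := fun ε => (wε ε, f (αε ε)))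
        (hwc.prodMk (hf.comp hαc).continuousAt)
      have h' := h.tendsto.mono_left (nhdsWithin_le_nhds (s := Set.Ioi (0:ℝ)))
      simpa only [Function.comp_def, hw0, hα0] using h'
    exact (continuousOn_vN _ (gram_isHermitian w _)).tendsto.comp
      (tendsto_nhdsWithin_iff.2 ⟨hg, Eventually.of_forall fun ε => gram_isHermitian _ _⟩)
  exact le_of_tendsto_of_tendsto
    (((continuous_const.mul (continuous_g.comp (continuous_const.mul
      (continuous_gInv.comp (continuous_id.div_const (n:ℝ)))))).tendsto _).comp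
        (lim id continuous_id))
    (lim (fun β => att1 β η) hatt) hall

end

end Vale.Agent.P369.Classical
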