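import Vale.Agent.P369.Classical.Defs
import Vale.Agent.P369.Fock.Bridge

/-!
P369: kernels of coherent states: overlaps, the Poincaré inequality of a coherent state and the
positivity `0 ≤ ‖a†Φ + Ψ‖²` as kernel inequalities, and the entropy of a finite mixture.
-/

namespace Vale.Agent.P369.Classical

noncomputable section

open Matrix Finset Filter Vale.Agent.P369.Fock
open scoped ComplexConjugate ComplexOrder Topology

variable {n : ℕ} {ι : Type*} [Fintype ι]

/-- `∑ conj c_s c_t K_st` has nonnegative real part -/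
def KPos (K : ι → ι → ℂ) : Prop := ∀ c : ι → ℂ, 0 ≤ (∑ s, ∑ t, conj (c s) * c t * K s t).re

theorem quad_rankOne {κ : Type*} [Fintype κ] (c : ι → ℂ) (g : κ → ι → ℂ) :
    (∑ s, ∑ t, conj (c s) * c t * ∑ f, conj (g f s) * g f t).re
      = ∑ f, Complex.normSq (∑ t, c t * g f t) := by
  have : ∑ s, ∑ t, conj (c s) * c t * ∑ f, conj (g f s) * g f t
      = ∑ f, conj (∑ t, c t * g f t) * ∑ t, c t * g f t := by
    simp only [map_sum, map_mul, Finset.sum_mul_sum]
    simp only [mul_sum]
    rw [Finset.sum_comm (s := (univ : Finset κ))]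
    refine sum_congr rfl fun s _ => ?_
    rw [Finset.sum_comm]
    exact sum_congr rfl fun f _ => sum_congr rfl fun t _ => by ring
  rw [this, Complex.re_sum]
  refine sum_congr rfl fun f _ => ?_
  rw [← Complex.normSq_eq_conj_mul_self, Complex.ofReal_re]

/-- inner product of amplitude vectors -/
def dotc (a b : Fin n → ℂ) : ℂ := ∑ i, conj (a i) * b i

/-- powers of a Gram kernel are positive (Schur) -/
theorem kpos_pow (β : ι → Fin n → ℂ) (k : ℕ) : KPos fun s t => dotc (β s) (β t) ^ k := by
  intro c
  have e : ∀ s t, dotc (β s) (β t) ^ k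
      = ∑ f : Fin k → Fin n, conj (∏ m, β s (f m)) * ∏ m, β t (f m) := by
    intro s t
    rw [dotc, ← Fin.prod_const k, prod_univ_sum]
    simp only [Fintype.piFinset_univ, map_prod, ← prod_mul_distrib]
  simp only [e]
  rw [quad_rankOne]
  exact sum_nonneg fun f _ => Complex.normSq_nonneg _

theorem hasSum_cexp (z : ℂ) :
    HasSum (fun k => z ^ k / (k.factorial : ℂ)) (Complex.exp z) := by
  have := NormedSpace.expSeries_div_hasSum_exp z
  rwa [← Complex.exp_eq_exp_ℂ] at this

/-- a convergent series of positive kernels is positive -/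
theorem kpos_hasSum {K : ι → ι → ℂ} {T : ℕ → ι → ι → ℂ} (hT : ∀ k, KPos (T k))
    (h : ∀ s t, HasSum (fun k => T k s t) (K s t)) : KPos K := by
  intro c
  have h1 : HasSum (fun k => ∑ s, ∑ t, conj (c s) * c t * T k s t)
      (∑ s, ∑ t, conj (c s) * c t * K s t) :=
    hasSum_sum fun s _ => hasSum_sum fun t _ => (h s t).mul_left _
  exact (Complex.hasSum_re h1).nonneg fun k => hT k c

theorem KPos.smul {K : ι → ι → ℂ} (hK : KPos K) {r : ℝ} (hr : 0 ≤ r) :
    KPos fun s t => (r : ℂ) * K s t := by
  intro c
  have e : ∑ s, ∑ t, conj (c s) * c t * ((r : ℂ) * K s t)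
      = (r : ℂ) * ∑ s, ∑ t, conj (c s) * c t * K s t := by
    simp only [mul_sum]; exact sum_congr rfl fun s _ => sum_congr rfl fun t _ => by ring
  rw [e, Complex.re_ofReal_mul]
  exact mul_nonneg hr (hK c)

/-- rescaling rows and columns -/
theorem KPos.scale {K : ι → ι → ℂ} (hK : KPos K) (u : ι → ℂ) :
    KPos fun s t => conj (u s) * u t * K s t := by
  intro c
  refine (hK fun s => c s * u s).trans_eq (congrArg Complex.re ?_)
  refine sum_congr rfl fun s _ => sum_congr rfl fun t _ => ?_
  rw [map_mul]; ring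

theorem kpos_exp (β : ι → Fin n → ℂ) : KPos fun s t => Complex.exp (dotc (β s) (β t)) := by
  refine kpos_hasSum (T := fun k s t =>
    ((1 / (k.factorial : ℝ) : ℝ) : ℂ) * dotc (β s) (β t) ^ k)
    (fun k => (kpos_pow β k).smul (by positivity)) fun s t => ?_
  refine (hasSum_cexp _).congr_fun fun k => ?_
  push_cast
  ring

theorem ovl_eq (a b : Fin n → ℂ) :
    ovl a b = Complex.exp (dotc a b - (dotc a a + dotc b b) / 2) := by
  have e : ∀ x : Fin n → ℂ, dotc x x = ((∑ i, ‖x i‖ ^ 2 : ℝ) : ℂ) := fun x => by
    simp only [dotc, Complex.sq_norm, Complex.normSq_eq_conj_mul_self, Complex.ofReal_sum]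
  rw [ovl, e a, e b, dotc]
  push_cast
  ring_nf

theorem conj_ovl (a b : Fin n → ℂ) : conj (ovl a b) = ovl b a := by
  rw [ovl_eq, ovl_eq, ← Complex.exp_conj]
  simp only [dotc, map_sub, map_add, map_div₀, map_sum, map_mul, Complex.conj_conj, map_ofNat]
  congr 1
  simp only [mul_comm]
  ring

theorem ovl_self (a : Fin n → ℂ) : ovl a a = 1 := by
  rw [ovl_eq, ← Complex.exp_zero]; congr 1; ring

/-- displacement of overlaps to the frame of `c` -/
theorem ovl_frame (a b c : Fin n → ℂ) :
    ovl a b = conj (ovl c a) * ovl c b * Complex.exp (dotc (a - c) (b - c)) := by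
  rw [conj_ovl, ovl_eq, ovl_eq, ovl_eq, ← Complex.exp_add, ← Complex.exp_add]
  congr 1
  simp only [dotc, Pi.sub_apply, map_sub, sub_mul, mul_sub, Finset.sum_sub_distrib]
  ring

variable (w : ι → ℝ) (α : ι → Fin n → ℂ)

/-- **Poincaré inequality at the coherent state `α r`.** -/
theorem poincare (c : ι → ℂ) (r : ι) :
    (∑ s, ∑ t, conj (c s) * c t * ovl (α s) (α t)).re
        - ‖∑ t, ovl (α r) (α t) * c t‖ ^ 2
      ≤ ∑ i, (∑ s, ∑ t, conj ((α s i - α r i) * c s) * ((α t i - α r i) * c t)
          * ovl (α s) (α t)).re := by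
  set β : ι → Fin n → ℂ := fun s => α s - α r with hβ
  set u : ι → ℂ := fun s => ovl (α r) (α s) with hu
  -- `(z-1) exp z + 1` has nonnegative Taylor coefficients
  have hk : KPos fun s t => (dotc (β s) (β t) - 1) * Complex.exp (dotc (β s) (β t)) + 1 := by
    refine kpos_hasSum (T := fun k s t =>
      ((((k - 1 : ℕ) : ℝ) / (k.factorial : ℝ) : ℝ) : ℂ) * dotc (β s) (β t) ^ k)
      (fun k => (kpos_pow β k).smul (by positivity)) fun s t => ?_
    set z := dotc (β s) (β t)
    have h2 : HasSum (fun k : ℕ => (k : ℂ) * (z ^ k / (k.factorial : ℂ))) (z * Complex.exp z) := by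
      rw [← hasSum_nat_add_iff' 1]
      simp only [sum_range_one, Nat.cast_zero, zero_mul, sub_zero]
      refine ((hasSum_cexp z).mul_left z).congr_fun fun k => ?_
      rw [Nat.factorial_succ, pow_succ]
      push_cast
      have : (k.factorial : ℂ) ≠ 0 := Nat.cast_ne_zero.2 k.factorial_ne_zero
      field_simp
    have h3 : HasSum (fun k : ℕ => if k = 0 then (1 : ℂ) else 0) 1 := hasSum_ite_eq 0 1
    have h := (h2.sub (hasSum_cexp z)).add h3
    rw [show z * Complex.exp z - Complex.exp z + 1 = (z - 1) * Complex.exp z + 1 by ring] at h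
    refine h.congr_fun fun k => ?_
    rcases Nat.eq_zero_or_pos k with rfl | hk0
    · simp
    · rw [if_neg hk0.ne', Nat.cast_sub hk0]
      push_cast
      ring
  have h := hk.scale u c
  have e1 : ∀ s t, conj (u s) * u t * ((dotc (β s) (β t) - 1) * Complex.exp (dotc (β s) (β t)) + 1)
      = (dotc (β s) (β t) - 1) * ovl (α s) (α t) + conj (u s) * u t := fun s t => by
    rw [ovl_frame (α s) (α t) (α r)]; simp only [hu, hβ]; ring
  have e2 : ∑ s, ∑ t, conj (c s) * c t * (conj (u s) * u t)
      = ((‖∑ t, u t * c t‖ ^ 2 : ℝ) : ℂ) := by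
    rw [Complex.sq_norm, Complex.normSq_eq_conj_mul_self, map_sum, Finset.sum_mul_sum]
    exact sum_congr rfl fun s _ => sum_congr rfl fun t _ => by rw [map_mul]; ring
  have e3 : ∑ i, ∑ s, ∑ t, conj ((α s i - α r i) * c s) * ((α t i - α r i) * c t) * ovl (α s) (α t)
      = ∑ s, ∑ t, conj (c s) * c t * (dotc (β s) (β t) * ovl (α s) (α t)) := by
    rw [Finset.sum_comm]
    refine sum_congr rfl fun s _ => ?_
    rw [Finset.sum_comm]
    refine sum_congr rfl fun t _ => ?_
    rw [dotc, Finset.sum_mul, mul_sum]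
    refine sum_congr rfl fun i _ => ?_
    simp only [hβ, Pi.sub_apply, map_mul]
    ring
  beta_reduce at h
  simp only [e1] at h
  simp only [sub_mul, one_mul, mul_add, mul_sub, sum_add_distrib, sum_sub_distrib, e2,
    Complex.add_re, Complex.sub_re, Complex.ofReal_re] at h
  rw [← e3, Complex.re_sum] at h
  simp only [hu] at h
  linarith

/-- **Positivity of `‖a_j† Φ + Ψ‖²`**, written on coherent overlaps. -/
theorem adjoint_pos (c d : ι → ℂ) (j : Fin n) :
    0 ≤ (∑ s, ∑ t, (conj (c s) * c t * (1 + conj (α s j) * α t j)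
      + conj (c s) * d t * α t j + conj (d s) * c t * conj (α s j) + conj (d s) * d t)
      * ovl (α s) (α t)).re := by
  classical
  set u : ι → ℂ := fun s => ovl 0 (α s) with hu
  set β : ι → Fin n → ℂ := fun s => Function.update (α s) j 0 with hβ
  set c' : ι → ℂ := fun s => c s * u s with hc'
  set d' : ι → ℂ := fun s => d s * u s with hd'
  set g : ℕ → ι → ℂ := fun k s => (k : ℂ) * α s j ^ (k - 1) * c' s + α s j ^ k * d' s with hg
  have hdot : ∀ s t, dotc (α s) (α t) = conj (α s j) * α t j + dotc (β s) (β t) := by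
    intro s t
    simp only [dotc]
    rw [← Finset.add_sum_erase _ _ (mem_univ j), ← Finset.add_sum_erase _ _ (mem_univ j)]
    simp only [hβ, Function.update_self, map_zero, zero_mul, zero_add]
    congr 1
    refine sum_congr rfl fun i hi => ?_
    rw [Function.update_of_ne (Finset.ne_of_mem_erase hi), Function.update_of_ne (Finset.ne_of_mem_erase hi)]
  have hser : ∀ s t, HasSum (fun k => conj (g k s) * g k t / (k.factorial : ℂ))
      ((conj (c' s) * c' t * (1 + conj (α s j) * α t j) + conj (c' s) * d' t * α t j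
        + conj (d' s) * c' t * conj (α s j) + conj (d' s) * d' t)
        * Complex.exp (conj (α s j) * α t j)) := by
    intro s t
    set a := conj (α s j)
    set b := α t j
    have h0 := hasSum_cexp (a * b)
    have h1 : HasSum (fun k : ℕ => (k : ℂ) * (a * b) ^ (k - 1) / (k.factorial : ℂ))
        (Complex.exp (a * b)) := by
      rw [← hasSum_nat_add_iff' 1]
      simp only [sum_range_one, Nat.cast_zero, zero_mul, zero_div, sub_zero]
      refine h0.congr_fun fun k => ?_
      rw [Nat.factorial_succ, Nat.add_sub_cancel]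
      push_cast
      have : (k.factorial : ℂ) ≠ 0 := Nat.cast_ne_zero.2 k.factorial_ne_zero
      field_simp
    have h2 : HasSum (fun k : ℕ => (k : ℂ) ^ 2 * (a * b) ^ (k - 1) / (k.factorial : ℂ))
        ((1 + a * b) * Complex.exp (a * b)) := by
      rw [← hasSum_nat_add_iff' 1]
      simp only [sum_range_one, Nat.cast_zero, ne_eq, OfNat.ofNat_ne_zero, not_false_eq_true,
        zero_pow, zero_mul, zero_div, sub_zero]
      have h3 : HasSum (fun k : ℕ => (k : ℂ) * (a * b) ^ k / (k.factorial : ℂ))
          (a * b * Complex.exp (a * b)) := by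
        refine (h1.mul_left (a * b)).congr_fun fun k => ?_
        rcases Nat.eq_zero_or_pos k with rfl | hk
        · simp
        · have e : (a * b) ^ k = (a * b) ^ (k - 1) * (a * b) := by
            rw [← pow_succ, Nat.sub_add_cancel hk]
          rw [e]; ring
      have h := h3.add h0
      rw [show a * b * Complex.exp (a * b) + Complex.exp (a * b)
        = (1 + a * b) * Complex.exp (a * b) by ring] at h
      refine h.congr_fun fun k => ?_
      rw [Nat.factorial_succ, Nat.add_sub_cancel]
      push_cast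
      have : (k.factorial : ℂ) ≠ 0 := Nat.cast_ne_zero.2 k.factorial_ne_zero
      have : ((k : ℂ) + 1) ≠ 0 := Nat.cast_add_one_ne_zero k
      field_simp
    have h := (((h2.mul_left (conj (c' s) * c' t)).add
      (h1.mul_left (conj (c' s) * d' t * b + conj (d' s) * c' t * a))).add
      (h0.mul_left (conj (d' s) * d' t)))
    rw [show conj (c' s) * c' t * ((1 + a * b) * Complex.exp (a * b))
        + (conj (c' s) * d' t * b + conj (d' s) * c' t * a) * Complex.exp (a * b)
        + conj (d' s) * d' t * Complex.exp (a * b)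
        = (conj (c' s) * c' t * (1 + a * b) + conj (c' s) * d' t * b + conj (d' s) * c' t * a
          + conj (d' s) * d' t) * Complex.exp (a * b) by ring] at h
    refine h.congr_fun fun k => ?_
    simp only [hg, map_add, map_mul, map_pow, map_natCast]
    rcases Nat.eq_zero_or_pos k with rfl | hk
    · simp
    · obtain ⟨m, rfl⟩ : ∃ m, k = m + 1 := ⟨k - 1, by omega⟩
      simp only [Nat.add_sub_cancel, pow_succ, mul_pow, a, b]
      ring
  have hE : ∀ s t, ovl (α s) (α t) = conj (u s) * u t
      * (Complex.exp (conj (α s j) * α t j) * Complex.exp (dotc (β s) (β t))) := by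
    intro s t
    rw [ovl_frame (α s) (α t) 0, sub_zero, sub_zero, hdot, Complex.exp_add]
  have hall : HasSum
      (fun k => ∑ s, ∑ t, conj (g k s) * g k t / (k.factorial : ℂ) * Complex.exp (dotc (β s) (β t)))
      (∑ s, ∑ t, (conj (c s) * c t * (1 + conj (α s j) * α t j)
        + conj (c s) * d t * α t j + conj (d s) * c t * conj (α s j) + conj (d s) * d t)
        * ovl (α s) (α t)) := by
    refine hasSum_sum fun s _ => hasSum_sum fun t _ => ?_
    have h := (hser s t).mul_right (Complex.exp (dotc (β s) (β t)))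
    refine Eq.mp (congrArg (HasSum _) ?_) h
    rw [hE]
    simp only [hc', hd', map_mul]
    ring
  refine (Complex.hasSum_re hall).nonneg fun k => ?_
  have h := kpos_exp β (g k)
  have e : ∑ s, ∑ t, conj (g k s) * g k t / (k.factorial : ℂ) * Complex.exp (dotc (β s) (β t))
      = ((1 / (k.factorial : ℝ) : ℝ) : ℂ)
        * ∑ s, ∑ t, conj (g k s) * g k t * Complex.exp (dotc (β s) (β t)) := by
    simp only [mul_sum]
    refine sum_congr rfl fun s _ => sum_congr rfl fun t _ => ?_
    push_cast; ring
  rw [e, Complex.re_ofReal_mul]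
  exact mul_nonneg (by positivity) h

theorem kpos_ovl : KPos fun s t => ovl (α s) (α t) := by
  have := (kpos_exp fun s => α s - 0).scale fun s => ovl 0 (α s)
  simpa only [← ovl_frame] using this

omit [Fintype ι] in
theorem gram_isHermitian : (gram w α).IsHermitian := by
  refine Matrix.ext fun s t => ?_
  simp only [conjTranspose_apply, gram, of_apply, RCLike.star_def, map_mul, Complex.conj_ofReal,
    conj_ovl]
  ring_nf

theorem gram_posSemidef : (gram w α).PosSemidef := by
  refine Matrix.PosSemidef.of_dotProduct_mulVec_nonneg (gram_isHermitian w α) fun x => ?_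
  have e : star x ⬝ᵥ (gram w α *ᵥ x) = ∑ s, ∑ t, conj ((Real.sqrt (w s) : ℂ) * x s)
      * ((Real.sqrt (w t) : ℂ) * x t) * ovl (α s) (α t) := by
    simp only [dotProduct, mulVec, Pi.star_apply, RCLike.star_def, mul_sum, gram, of_apply,
      map_mul, Complex.conj_ofReal]
    refine sum_congr rfl fun s _ => sum_congr rfl fun t _ => ?_
    push_cast; ring
  rw [e]
  refine Complex.nonneg_iff.2 ⟨kpos_ovl α _, ?_⟩
  rw [eq_comm, ← Complex.conj_eq_iff_im, map_sum]
  simp only [map_sum, map_mul, Complex.conj_conj, conj_ovl]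
  rw [Finset.sum_comm]
  exact sum_congr rfl fun s _ => sum_congr rfl fun t _ => by ring

end

end Vale.Agent.P369.Classical
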