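import Vale.Agent.P369.Classical.Defs

/-!
P369: photon statistics of a coherent state, and the action of the Kraus coefficients on it.
-/

namespace Vale.Agent.P369.Classical

noncomputable section

open Matrix Finset Filter Vale.Agent.P369.Fock
open scoped ComplexConjugate Topology

theorem hasSum_mul_prod {α β : Type} {f : α → ℝ} {g : β → ℝ} {s t : ℝ} (hf : ∀ a, 0 ≤ f a)
    (hg : ∀ b, 0 ≤ g b) (hs : HasSum f s) (ht : HasSum g t) :
    HasSum (fun p : α × β => f p.1 * g p.2) (s * t) :=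
  hs.mul ht (hs.summable.mul_of_nonneg ht.summable hf hg)

theorem hasSum_pi_prod : ∀ {n : ℕ} {f : Fin n → ℕ → ℝ} {s : Fin n → ℝ}, (∀ i k, 0 ≤ f i k) →
    (∀ i, HasSum (f i) (s i)) → HasSum (fun a : Fin n → ℕ => ∏ i, f i (a i)) (∏ i, s i) := by
  intro n
  induction n with
  | zero =>
    intro f s _ _
    simp only [univ_eq_empty, prod_empty]
    exact hasSum_unique _
  | succ n ih =>
    intro f s hf hs
    have h1 : HasSum (fun a : Fin n → ℕ => ∏ i : Fin n, f i.succ (a i)) (∏ i : Fin n, s i.succ) :=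
      ih (fun i k => hf _ k) fun i => hs i.succ
    have hg : ∀ a : Fin n → ℕ, 0 ≤ ∏ i : Fin n, f i.succ (a i) := fun a => prod_nonneg fun i _ => hf _ _
    have h2 := hasSum_mul_prod (hf 0) hg (hs 0) h1
    have e : (fun a : Fin (n + 1) → ℕ => ∏ i, f i (a i)) =
        (fun p : ℕ × (Fin n → ℕ) => f 0 p.1 * ∏ i : Fin n, f i.succ (p.2 i)) ∘
          (fun a : Fin (n + 1) → ℕ => (a 0, fun i => a i.succ)) := by
      funext a
      exact Fin.prod_univ_succ _
    rw [Fin.prod_univ_succ, e]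
    exact (Fin.consEquiv fun _ => ℕ).symm.hasSum_iff.2 h2

variable {n : ℕ} {x : Fin n → ℂ}

/-- the mean photon number of a coherent state -/
def amt (x : Fin n → ℂ) : ℝ := ∑ i, ‖x i‖ ^ 2

theorem amt_nonneg (x : Fin n → ℂ) : 0 ≤ amt x := sum_nonneg fun _ _ => sq_nonneg _

/-- photon number distribution of a coherent state -/
def pc (x : Fin n → ℂ) (a : Fin n → ℕ) : ℝ := ‖coh x a‖ ^ 2

theorem pc_nonneg (x : Fin n → ℂ) (a : Fin n → ℕ) : 0 ≤ pc x a := sq_nonneg _

theorem coh_mul_conj (x : Fin n → ℂ) (a : Fin n → ℕ) :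
    coh x a * conj (coh x a) = (pc x a : ℂ) := by
  rw [Complex.mul_conj, pc, Complex.sq_norm]

theorem pc_eq (x : Fin n → ℂ) (a : Fin n → ℕ) :
    pc x a = Real.exp (-amt x) * ∏ i, (‖x i‖ ^ 2) ^ a i / ((a i).factorial : ℝ) := by
  rw [pc, coh, norm_mul, Complex.norm_real, Real.norm_of_nonneg (Real.exp_pos _).le, norm_prod,
    mul_pow, ← Finset.prod_pow, ← Real.exp_nat_mul]
  congr 1
  · rw [amt]; push_cast; ring_nf
  · refine prod_congr rfl fun i _ => ?_
    rw [norm_div, norm_pow, Complex.norm_real, Real.norm_of_nonneg (Real.sqrt_nonneg _), div_pow,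
      Real.sq_sqrt (Nat.cast_nonneg _), ← pow_mul, ← pow_mul, mul_comm]

theorem hasSum_pc (x : Fin n → ℂ) : HasSum (pc x) 1 := by
  have h := (hasSum_pi_prod (f := fun i k => (‖x i‖ ^ 2) ^ k / (k.factorial : ℝ))
    (s := fun i => Real.exp (‖x i‖ ^ 2)) (fun i k => by positivity) fun i => by
      rw [Real.exp_eq_exp_ℝ]
      exact NormedSpace.expSeries_div_hasSum_exp (‖x i‖ ^ 2)).mul_left (Real.exp (-amt x))
  rw [← Real.exp_sum, ← amt, ← Real.exp_add, neg_add_cancel, Real.exp_zero] at h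
  exact h.congr_fun fun a => pc_eq x a

theorem pc_le_one (x : Fin n → ℂ) (a : Fin n → ℕ) : pc x a ≤ 1 :=
  le_hasSum (hasSum_pc x) a fun b _ => pc_nonneg x b

theorem norm_coh_le_one (x : Fin n → ℂ) (a : Fin n → ℕ) : ‖coh x a‖ ≤ 1 := by
  have h := pc_le_one x a
  rw [pc] at h
  nlinarith [norm_nonneg (coh x a)]

theorem pc_shift (x : Fin n → ℂ) (i : Fin n) (b : Fin n → ℕ) :
    ((b i : ℝ) + 1) * pc x (b + Pi.single i 1) = ‖x i‖ ^ 2 * pc x b := by
  rw [pc_eq, pc_eq]
  have hu := mem_univ i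
  rw [← mul_prod_erase _ _ hu, ← mul_prod_erase _ _ hu]
  have he : ∀ j ∈ univ.erase i, (b + Pi.single i 1 : Fin n → ℕ) j = b j := fun j hj => by
    simp [ne_of_mem_erase hj]
  rw [prod_congr rfl fun j hj => by rw [he j hj]]
  simp only [Pi.add_apply, Pi.single_eq_same, pow_succ, Nat.factorial_succ]
  push_cast
  have : ((b i : ℝ) + 1) ≠ 0 := by positivity
  field_simp

theorem hasSum_mul_pc {i : Fin n} {f : (Fin n → ℕ) → ℝ} {c : ℝ}
    (h : HasSum (fun b => f (b + Pi.single i 1) * pc x b) c) :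
    HasSum (fun a => (a i : ℝ) * (f a * pc x a)) (‖x i‖ ^ 2 * c) := by
  have hinj : Function.Injective fun b : Fin n → ℕ => b + Pi.single i 1 := add_left_injective _
  refine (hinj.hasSum_iff fun a ha => ?_).1 ((h.mul_left (‖x i‖ ^ 2)).congr_fun fun b => ?_)
  · by_cases h0 : a i = 0
    · simp [h0]
    refine absurd ⟨a - Pi.single i 1, funext fun j => ?_⟩ ha
    by_cases hj : j = i
    · subst hj; simp; omega
    · simp [hj]
  · simp only [Function.comp_apply, Pi.add_apply, Pi.single_eq_same]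
    push_cast
    linear_combination f (b + Pi.single i 1) * pc_shift x i b

theorem hasSum_deg_mul {f : (Fin n → ℕ) → ℝ} {c : Fin n → ℝ}
    (h : ∀ i, HasSum (fun b => f (b + Pi.single i 1) * pc x b) (c i)) :
    HasSum (fun a => ((∑ j, a j : ℕ) : ℝ) * (f a * pc x a)) (∑ i, ‖x i‖ ^ 2 * c i) := by
  have := hasSum_sum fun i (_ : i ∈ univ) => hasSum_mul_pc (h i)
  exact this.congr_fun fun a => by rw [Nat.cast_sum, sum_mul]

theorem hasSum_deg (x : Fin n → ℂ) :
    HasSum (fun a => ((∑ j, a j : ℕ) : ℝ) * pc x a) (amt x) := by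
  have := hasSum_deg_mul (x := x) (f := fun _ => (1:ℝ)) (c := fun _ => 1)
    fun i => (hasSum_pc x).congr_fun fun b => one_mul _
  simpa [amt] using this

theorem hasSum_deg_sq (x : Fin n → ℂ) :
    HasSum (fun a => ((∑ j, a j : ℕ) : ℝ) * (((∑ j, a j : ℕ) : ℝ) * pc x a))
      (amt x * (amt x + 1)) := by
  have := hasSum_deg_mul (x := x) (f := fun a => ((∑ j, a j : ℕ) : ℝ)) (c := fun _ => amt x + 1)
    fun i => ((hasSum_deg x).add (hasSum_pc x)).congr_fun fun b => by
      simp only [Pi.add_apply, sum_add_distrib, Finset.sum_pi_single', mem_univ, if_true]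
      push_cast
      ring
  rwa [← sum_mul] at this

/-- energy tail of a coherent state, bounded by a function increasing in `amt` -/
def tb (L : ℕ) (s : ℝ) : ℝ := min s (s * (s + 1) / (L + 1))

theorem tb_nonneg (L : ℕ) {s : ℝ} (hs : 0 ≤ s) : 0 ≤ tb L s :=
  le_min hs (by positivity)

theorem tb_mono (L : ℕ) {s t : ℝ} (hs : 0 ≤ s) (hst : s ≤ t) : tb L s ≤ tb L t :=
  min_le_min hst (by gcongr; linarith)

theorem tendsto_tb {s : ℝ} (hs : 0 ≤ s) : Tendsto (fun L => tb L s) atTop (𝓝 0) := by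
  have h : Tendsto (fun L : ℕ => s * (s + 1) / (L + 1)) atTop (𝓝 0) := by
    simpa [div_eq_mul_inv] using
      (tendsto_one_div_add_atTop_nhds_zero_nat (𝕜 := ℝ)).const_mul (s * (s + 1))
  exact squeeze_zero (fun L => tb_nonneg L hs) (fun L => min_le_right _ _) h

theorem sum_tail_le (x : Fin n → ℂ) (L : ℕ) (F : Finset (Fin n → ℕ)) :
    ∑ a ∈ F, (if ∀ j, a j ≤ L then 0 else ((∑ j, a j : ℕ) : ℝ)) * pc x a ≤ tb L (amt x) := by
  refine le_min ?_ ?_
  · refine le_trans (sum_le_sum fun a _ => ?_)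
      (sum_le_hasSum F (fun a _ => mul_nonneg (Nat.cast_nonneg _) (pc_nonneg x a)) (hasSum_deg x))
    exact mul_le_mul_of_nonneg_right (by split; exacts [Nat.cast_nonneg _, le_rfl]) (pc_nonneg _ _)
  · rw [le_div_iff₀ (by positivity), sum_mul]
    refine le_trans (sum_le_sum fun a _ => ?_) (sum_le_hasSum F (fun a _ => mul_nonneg
      (Nat.cast_nonneg _) (mul_nonneg (Nat.cast_nonneg _) (pc_nonneg x a))) (hasSum_deg_sq x))
    split_ifs with ha
    · rw [zero_mul, zero_mul]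
      exact mul_nonneg (Nat.cast_nonneg _) (mul_nonneg (Nat.cast_nonneg _) (pc_nonneg x a))
    · push Not at ha
      obtain ⟨j, hj⟩ := ha
      have h1 : L + 1 ≤ ∑ j, a j :=
        le_trans hj (single_le_sum (f := a) (fun _ _ => Nat.zero_le _) (mem_univ j))
      have h2 : ((L : ℝ) + 1) ≤ ((∑ j, a j : ℕ) : ℝ) := by exact_mod_cast h1
      rw [mul_comm]
      exact mul_le_mul_of_nonneg_right h2 (mul_nonneg (Nat.cast_nonneg _) (pc_nonneg x a))

theorem kcoef_mul_coh_smul {η : ℝ} (h0 : 0 ≤ η) (h1 : η ≤ 1) (x : Fin n → ℂ) (a m : Fin n → ℕ) :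
    (kcoef η a m : ℂ) * coh x (a + m) =
      coh (Real.sqrt η • x) a * coh (Real.sqrt (1 - η) • x) m := by
  have hs : ∀ r : ℝ, 0 ≤ r → ∀ i, ‖(Real.sqrt r • x) i‖ ^ 2 = r * ‖x i‖ ^ 2 := fun r hr i => by
    rw [Pi.smul_apply, norm_smul, Real.norm_of_nonneg (Real.sqrt_nonneg _), mul_pow,
      Real.sq_sqrt hr]
  have hexp : -(∑ i, ‖x i‖ ^ 2) / 2 = -(∑ i, ‖(Real.sqrt η • x) i‖ ^ 2) / 2 +
      -(∑ i, ‖(Real.sqrt (1 - η) • x) i‖ ^ 2) / 2 := by
    simp only [hs η h0, hs (1 - η) (by linarith), ← mul_sum]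
    ring
  simp only [coh, kcoef]
  rw [hexp, Real.exp_add]
  push_cast
  rw [← mul_assoc, mul_comm (∏ i, _) (_ * _), mul_assoc, mul_mul_mul_comm (Complex.exp _) (∏ i, _),
    ← prod_mul_distrib, ← prod_mul_distrib]
  congr 1
  refine prod_congr rfl fun i _ => ?_
  simp only [Pi.add_apply, Pi.smul_apply, Complex.real_smul, mul_pow, pow_add]
  have hc : Real.sqrt ((Nat.choose (a i + m i) (m i) : ℝ) * η ^ a i * (1 - η) ^ m i) *
      (Real.sqrt ((a i).factorial : ℝ) * Real.sqrt ((m i).factorial : ℝ)) =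
      Real.sqrt ((a i + m i).factorial : ℝ) * (Real.sqrt η ^ a i * Real.sqrt (1 - η) ^ m i) := by
    rw [Real.sqrt_mul' _ (pow_nonneg (by linarith) _), Real.sqrt_mul' _ (pow_nonneg h0 _),
      ← Real.sqrt_eq_iff_mul_self_eq (pow_nonneg h0 _) (pow_nonneg (Real.sqrt_nonneg _) _) |>.2
        (by rw [← mul_pow, Real.mul_self_sqrt h0]),
      ← Real.sqrt_eq_iff_mul_self_eq (pow_nonneg (by linarith : (0:ℝ) ≤ 1 - η) _)
        (pow_nonneg (Real.sqrt_nonneg _) _) |>.2
        (by rw [← mul_pow, Real.mul_self_sqrt (by linarith)]),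
      show ((a i + m i).factorial : ℝ) = (Nat.choose (a i + m i) (m i) : ℝ) *
        ((a i).factorial * (m i).factorial) by
          rw [← Nat.add_choose_mul_factorial_mul_factorial (a i) (m i)]
          push_cast; ring,
      Real.sqrt_mul (Nat.cast_nonneg _), Real.sqrt_mul (Nat.cast_nonneg _)]
    ring
  have hne : ∀ k : ℕ, ((Real.sqrt (k.factorial : ℝ) : ℂ)) ≠ 0 := fun k => by
    rw [Ne, Complex.ofReal_eq_zero, Real.sqrt_eq_zero (Nat.cast_nonneg _)]
    exact_mod_cast k.factorial_ne_zero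
  have hc' := congrArg (fun t : ℝ => (t : ℂ)) hc
  push_cast at hc'
  field_simp [hne]
  linear_combination hc' * x i ^ a i * x i ^ m i

end

end Vale.Agent.P369.Classical
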